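import Vale.Agent.P096.Three.Statement
import Vale.Agent.P096.Full.Reduce.Group
import Vale.Agent.P132.TypeThree.Defs

/-!
P096, all algebras: pinned vectors and fitting pairs.
-/

open scoped InnerProductSpace
open Filter Topology

namespace Vale.Agent.P096.Three

variable {H : Type} [NormedAddCommGroup H] [InnerProductSpace ℂ H] [CompleteSpace H]

/-- Finite groups in `M` with mirrors in the commutant whose averages tend into the centre. -/
structure Pinned (M : VonNeumannAlgebra H) (ξ : H) where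
  /-- The groups. -/
  Γ : Full.Reduce.Groups H
  /-- The mirror. -/
  r : (H →L[ℂ] H) → (H →L[ℂ] H)
  memM : ∀ g ∈ Γ.carrier, g ∈ M
  r_mem : ∀ g ∈ Γ.carrier, r g ∈ M.commutant
  r_unitary : ∀ g ∈ Γ.carrier, r g ∈ unitary (H →L[ℂ] H)
  r_ξ : ∀ g ∈ Γ.carrier, r g ξ = star g ξ
  central : ∀ x ∈ M, ∃ z ∈ M, z ∈ M.commutant ∧
    ∀ v, Tendsto (fun m => Full.Reduce.avg Γ m (fun g => g * x * star g) v) atTop (𝓝 (z v))

/-- The groups lie in `N`, their mirrors in its commutant, and the centres agree. -/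
structure Pinned.Fits {M : VonNeumannAlgebra H} {ξ : H} (P : Pinned M ξ)
    (N : VonNeumannAlgebra H) : Prop where
  memN : ∀ g ∈ P.Γ.carrier, g ∈ N
  r_memN : ∀ g ∈ P.Γ.carrier, P.r g ∈ N.commutant
  centre : ∀ z, (z ∈ M ∧ z ∈ M.commutant) ↔ (z ∈ N ∧ z ∈ N.commutant)

/-- `v` commutes with the groups and their mirrors. -/
def Pinned.Commutes {M : VonNeumannAlgebra H} {ξ : H} (P : Pinned M ξ) (v : H →L[ℂ] H) : Prop :=
  ∀ g ∈ P.Γ.carrier, v * g = g * v ∧ v * P.r g = P.r g * v

end Vale.Agent.P096.Three
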