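import Vale.Agent.P096.Three.Core.Defs
import Vale.Agent.P096.Semi.Statement

/-!
P096, all algebras: the interfaces of reduction, cores and assembly.
-/

open scoped InnerProductSpace
open TopologicalSpace (SeparableSpace)
open Vale.Agent.P132.TypeThree (StdData)

namespace Vale.Agent.P096.Three

/-- The statement in standard form on separable spaces. -/
def StdTarget : Prop :=
  ∃ δ C : ℝ, 0 < δ ∧ 0 ≤ C ∧ ∀ (H : Type) [NormedAddCommGroup H] [InnerProductSpace ℂ H]
    [CompleteSpace H] [SeparableSpace H] (M N : VonNeumannAlgebra H) (ξ : H) (γ : ℝ),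
    VP132.IsStandardVector H M ξ → γ < δ → Lit.IsClose H M N γ → NearConj M N (C * γ)

/-- The statement for a pinned standard vector. -/
def PinnedTarget : Prop :=
  ∃ δ C : ℝ, 0 < δ ∧ 0 ≤ C ∧ ∀ (H : Type) [NormedAddCommGroup H] [InnerProductSpace ℂ H]
    [CompleteSpace H] [SeparableSpace H] (M N : VonNeumannAlgebra H) (ξ : H) (γ : ℝ),
    VP132.IsStandardVector H M ξ → Nonempty (Pinned M ξ) → γ < δ → Lit.IsClose H M N γ →
      NearConj M N (C * γ)

/-- REDUCE: every algebra to standard form. -/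
def ReduceModule : Prop := StdTarget → Target

/-- AMB: the stabilised algebra: separable, close to close ones, with componentwise modular
data, with the centre of the algebra, and equal to it on what commutes with the sites. -/
structure AmbSpec : Prop where
  separable : ∀ (H : Type) [NormedAddCommGroup H] [SeparableSpace H], SeparableSpace (AmbH H)
  close : ∃ C : ℝ, 0 ≤ C ∧ ∀ (H : Type) [NormedAddCommGroup H] [InnerProductSpace ℂ H]
    [CompleteSpace H] (M N : VonNeumannAlgebra H) (γ : ℝ), Lit.IsClose H M N γ →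
      Lit.IsClose (AmbH H) (amb M) (amb N) (C * γ)
  ten_mem : ∀ (H : Type) [NormedAddCommGroup H] [InnerProductSpace ℂ H] [CompleteSpace H]
    (M : VonNeumannAlgebra H), ∀ x ∈ M, ten x ∈ amb M
  centre : ∀ (H : Type) [NormedAddCommGroup H] [InnerProductSpace ℂ H] [CompleteSpace H]
    (M : VonNeumannAlgebra H) (z : AmbH H →L[ℂ] AmbH H),
    (z ∈ amb M ∧ z ∈ (amb M).commutant) ↔ ∃ z₀, (z₀ ∈ M ∧ z₀ ∈ M.commutant) ∧ z = ten z₀
  commute_sites : ∀ (H : Type) [NormedAddCommGroup H] [InnerProductSpace ℂ H] [CompleteSpace H]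
    (M : VonNeumannAlgebra H) (x : AmbH H →L[ℂ] AmbH H), x ∈ amb M →
    (∀ n a, x * lsite n a = lsite n a * x) → ∃ x₀ ∈ M, x = ten x₀
  data : ∀ (H : Type) [NormedAddCommGroup H] [InnerProductSpace ℂ H] [CompleteSpace H]
    (M : VonNeumannAlgebra H) (ξ : H) (R : H →L[ℂ] H) (J : H ≃ₗᵢ⋆[ℂ] H) (U : ℝ → H →L[ℂ] H),
    StdData M ξ R J U →
      ∃ (R₂ : AmbH H →L[ℂ] AmbH H) (J₂ : AmbH H ≃ₗᵢ⋆[ℂ] AmbH H),
        StdData (amb M) (put0 ξ) R₂ J₂ (ambU U) ∧ ∀ f i, J₂ f i = J (f (flipIdx i))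

/-- PIN: the stabilised algebra has a pinned standard vector. -/
def PinSpec : Prop :=
  ∀ (H : Type) [NormedAddCommGroup H] [InnerProductSpace ℂ H] [CompleteSpace H] [SeparableSpace H]
    (M : VonNeumannAlgebra H) (ξ : H), VP132.IsStandardVector H M ξ →
    ∃ η : AmbH H, VP132.IsStandardVector (AmbH H) (amb M) η ∧ Nonempty (Pinned (amb M) η)

/-- MOVE: the second algebra is moved to fit the pins. -/
def MoveSpec : Prop :=
  ∃ δ C : ℝ, 0 < δ ∧ 0 ≤ C ∧ ∀ (H : Type) [NormedAddCommGroup H] [InnerProductSpace ℂ H]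
    [CompleteSpace H] [SeparableSpace H] (M N : VonNeumannAlgebra H) (ξ : H) (P : Pinned M ξ)
    (γ : ℝ), VP132.IsStandardVector H M ξ → γ < δ → Lit.IsClose H M N γ →
    ∃ N' : VonNeumannAlgebra H, P.Fits N' ∧ VP132.IsStandardVector H N' ξ ∧
      Lit.IsClose H M N' (C * γ) ∧
      ∀ c : ℝ, NearConj M N' c → NearConj M N (c + C * γ)

/-- FLOW: the modular groups of a fitting pair are uniformly close. -/
def FlowTarget : Prop :=
  ∃ δ C : ℝ, 0 < δ ∧ 0 ≤ C ∧ ∀ (H : Type) [NormedAddCommGroup H] [InnerProductSpace ℂ H]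
    [CompleteSpace H] [SeparableSpace H] (M N : VonNeumannAlgebra H) (ξ : H) (P : Pinned M ξ)
    (R R' : H →L[ℂ] H) (J J' : H ≃ₗᵢ⋆[ℂ] H) (U U' : ℝ → H →L[ℂ] H) (γ : ℝ),
    StdData M ξ R J U → StdData N ξ R' J' U' → P.Fits N → γ < δ → Lit.IsClose H M N γ →
      ∀ t : ℝ, ‖U' t * U (-t) - 1‖ ≤ C * γ

/-- PIN UP: the pins of an algebra give pins of its stabilisation at `put0 ξ`, fitting with the
stabilisations of the algebras that fit. -/
def PinUpSpec : Prop :=
  ∀ (H : Type) [NormedAddCommGroup H] [InnerProductSpace ℂ H] [CompleteSpace H] [SeparableSpace H]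
    (M : VonNeumannAlgebra H) (ξ : H) (P : Pinned M ξ), VP132.IsStandardVector H M ξ →
    ∃ P₂ : Pinned (amb M) (put0 ξ), ∀ N : VonNeumannAlgebra H, P.Fits N → P₂.Fits (amb N)

/-- FLOW BRIDGE: the flow part applied on the stabilisations. -/
def FlowBridge : Prop := AmbSpec → PinUpSpec → FlowTarget

/-- CORE: a fitting pair normalised by the modular group of the first algebra is conjugate. -/
def CoreTarget : Prop :=
  ∃ δ C : ℝ, 0 < δ ∧ 0 ≤ C ∧ ∀ (H : Type) [NormedAddCommGroup H] [InnerProductSpace ℂ H]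
    [CompleteSpace H] [SeparableSpace H] (M N : VonNeumannAlgebra H) (ξ : H) (P : Pinned M ξ)
    (R : H →L[ℂ] H) (J : H ≃ₗᵢ⋆[ℂ] H) (U : ℝ → H →L[ℂ] H) (γ : ℝ),
    StdData M ξ R J U → P.Fits N → (∀ t : ℝ, ∀ x ∈ N, U t * x * U (-t) ∈ N) → γ < δ →
      Lit.IsClose H M N γ → NearConj M N (C * γ)

/-- DESCENT: conjugate stabilisations give conjugate algebras. -/
def DescentSpec : Prop :=
  ∃ δ C : ℝ, 0 < δ ∧ 0 ≤ C ∧ ∀ (H : Type) [NormedAddCommGroup H] [InnerProductSpace ℂ H]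
    [CompleteSpace H] (M N : VonNeumannAlgebra H) (γ c : ℝ), Lit.IsClose H M N γ → γ < δ → c < δ →
      NearConj (amb M) (amb N) c → NearConj M N (C * (γ + c))

/-- ROTATE: the flow and the cores give the pinned statement. -/
def RotateModule : Prop := MoveSpec → FlowTarget → CoreTarget → PinnedTarget

/-- ASSEMBLE: the pinned statement gives the standard one. -/
def AssembleModule : Prop := AmbSpec → PinSpec → DescentSpec → PinnedTarget → StdTarget

namespace Core

/-- CORE SEMIFINITE: the core of a stabilised pinned algebra is semifinite. -/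
def SemiSpec : Prop :=
  ∀ (H : Type) [NormedAddCommGroup H] [InnerProductSpace ℂ H] [CompleteSpace H] [SeparableSpace H]
    (M : VonNeumannAlgebra H) (ξ : H) (R : H →L[ℂ] H) (J : H ≃ₗᵢ⋆[ℂ] H) (U : ℝ → H →L[ℂ] H),
    StdData M ξ R J U → Nonempty (Pinned M ξ) →
      Semi.IsSemifinite (CoreH (AmbH H)) (core (amb M) (ambU U))

/-- CORE CLOSE: the cores of close algebras normalised by one flow are close. -/
def CloseSpec : Prop :=
  ∃ δ C : ℝ, 0 < δ ∧ 0 ≤ C ∧ ∀ (H : Type) [NormedAddCommGroup H] [InnerProductSpace ℂ H]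
    [CompleteSpace H] [SeparableSpace H] (M N : VonNeumannAlgebra H) (U : ℝ → H →L[ℂ] H) (γ : ℝ),
    (∀ s t, U (s + t) = U s * U t) → U 0 = 1 → (∀ t, star (U t) = U (-t)) →
    (∀ v, Continuous fun t => U t v) → (∀ t : ℝ, ∀ x ∈ M, U t * x * U (-t) ∈ M) →
    (∀ t : ℝ, ∀ x ∈ N, U t * x * U (-t) ∈ N) → γ < δ → Lit.IsClose H M N γ →
      Lit.IsClose (CoreH H) (core M U) (core N U) (C * γ)

/-- CORE RIGID: a unitary near the identity that normalises the core and commutes with the fixed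
operators commutes with the core. -/
def RigidSpec : Prop :=
  ∃ c : ℝ, 0 < c ∧ ∀ (H : Type) [NormedAddCommGroup H] [InnerProductSpace ℂ H] [CompleteSpace H]
    [SeparableSpace H] (M : VonNeumannAlgebra H) (ξ : H) (P : Pinned M ξ) (R : H →L[ℂ] H)
    (J : H ≃ₗᵢ⋆[ℂ] H) (U : ℝ → H →L[ℂ] H), StdData M ξ R J U →
    ∀ w ∈ unitary (CoreH (AmbH H) →L[ℂ] CoreH (AmbH H)), ‖w - 1‖ ≤ c →
      (∀ X, X ∈ core (amb M) (ambU U) ↔ w * X * star w ∈ core (amb M) (ambU U)) →
      (∀ a ∈ fixSet P, w * a = a * w) →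
      ∀ X ∈ core (amb M) (ambU U), w * X = X * w

/-- CORE END: the semifinite theorem on the cores gives the conjugacy. -/
def EndModule : Prop :=
  AmbSpec → DescentSpec → Semi.Target.{0} → SemiSpec → CloseSpec → RigidSpec → CoreTarget

end Core

theorem target_of (hA : AmbSpec) (hP : PinSpec) (hD : DescentSpec) (hM : MoveSpec)
    (hU : PinUpSpec) (hF : FlowBridge) (hS : Semi.Target.{0}) (h₁ : Core.SemiSpec) (h₂ : Core.CloseSpec)
    (h₃ : Core.RigidSpec) (m₁ : Core.EndModule) (m₂ : RotateModule) (m₃ : AssembleModule)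
    (m₄ : ReduceModule) : Target :=
  m₄ (m₃ hA hP hD (m₂ hM (hF hA hU) (m₁ hA hD hS h₁ h₂ h₃)))

end Vale.Agent.P096.Three
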