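import Vale.Agent.P096.Three.Spec

/-!
P096, all algebras: from the pinned statement on the stabilisations to standard form.
-/

namespace Vale.Agent.P096.Three

/-- The pinned statement gives the standard one. -/
theorem assembleModule : AssembleModule := by
  intro hA hP hD hT
  obtain ⟨Ca, hCa, hclose⟩ := hA.close
  obtain ⟨δd, Cd, hδd, hCd, hd⟩ := hD
  obtain ⟨δp, Cp, hδp, hCp, hp⟩ := hT
  refine ⟨min (min δd (δp / (Ca + 1))) (δd / (Cp * Ca + 1)), Cd * (1 + Cp * Ca), by positivity,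
    by positivity, fun H _ _ _ _ M N ξ γ hξ hγ hcl => ?_⟩
  obtain ⟨hγ', hγ3⟩ := lt_min_iff.1 hγ
  obtain ⟨hγ1, hγ2⟩ := lt_min_iff.1 hγ'
  have hγ0 : 0 ≤ γ := by
    obtain ⟨x, _, hx⟩ := hcl.1 0 (zero_mem _)
      (ContinuousLinearMap.opNorm_le_bound _ zero_le_one fun z => by simp)
    exact (norm_nonneg _).trans hx
  have := hA.separable H
  obtain ⟨η, hη, hpin⟩ := hP H M ξ hξ
  have h₂ : Ca * γ < δp := by
    rw [lt_div_iff₀ (by positivity)] at hγ2
    nlinarith
  have h₃ : Cp * (Ca * γ) < δd := by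
    rw [lt_div_iff₀ (by positivity)] at hγ3
    nlinarith
  have hc := hp (AmbH H) (amb M) (amb N) η (Ca * γ) hη hpin h₂ (hclose H M N γ hcl)
  have h := hd H M N γ (Cp * (Ca * γ)) hcl hγ1 h₃ hc
  rwa [show Cd * (1 + Cp * Ca) * γ = Cd * (γ + Cp * (Ca * γ)) by ring]

end Vale.Agent.P096.Three
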