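import Vale.Agent.P096.Three.Pinned
import Vale.Agent.P132.TypeThree.Smoothing

/-!
P096, all algebras: the modular group fixes what acts on the vector as an element of the commutant;
in particular it fixes pins, their mirrors and the centre.
-/

open scoped InnerProductSpace
open Vale.Agent.P132.Tomita Vale.Agent.P104.Continuous Vale.Agent.P132.TypeThree

namespace Vale.Agent.P096.Three

variable {H : Type} [NormedAddCommGroup H] [InnerProductSpace ℂ H] [CompleteSpace H]
variable {M : VonNeumannAlgebra H} {η : H} {R : H →L[ℂ] H} {J : H ≃ₗᵢ⋆[ℂ] H}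
  {U : ℝ → (H →L[ℂ] H)}

/-- A self-adjoint element of `M` acting on `η` as one of the commutant gives a fixed vector. -/
theorem R_fix_of_commutant (h : StdData M η R J U) {e e' : H →L[ℂ] H} (he : e ∈ M)
    (hes : IsSelfAdjoint e) (he' : e' ∈ M.commutant) (hes' : IsSelfAdjoint e')
    (hee : e η = e' η) : R (e η) = e η := by
  obtain ⟨v, hv⟩ : ∃ v, v = e η := ⟨_, rfl⟩
  have key : ∀ y ∈ M, ⟪v, y η⟫_ℂ = ⟪J v, J (star y η)⟫_ℂ := by
    intro y hy
    rw [inner_map_map', hv]
    calc ⟪e η, y η⟫_ℂ = ⟪e' η, y η⟫_ℂ := by rw [hee]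
      _ = ⟪η, y (e' η)⟫_ℂ := by rw [inner_proj hes', commute_apply he' hy]
      _ = ⟪star y η, e η⟫_ℂ := by
        rw [ContinuousLinearMap.star_eq_adjoint, ContinuousLinearMap.adjoint_inner_left, hee]
  have hR : R v = opT R (J v) := by
    refine ext_inner_right ℂ fun w => ?_
    rw [inner_proj h.mod.R_sa, inner_proj opT_selfAdjoint]
    refine eq_of_forall_dist_le fun ε hε => ?_
    obtain ⟨y, hy, h1, h2⟩ := h.graph w (ε / (2 * ‖v‖ + 1)) (by positivity)
    rw [dist_eq_norm]
    calc ‖⟪v, R w⟫_ℂ - ⟪J v, opT R w⟫_ℂ‖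
        = ‖⟪v, R w - y η⟫_ℂ + ⟪J v, J (star y η) - opT R w⟫_ℂ‖ := by
          rw [inner_sub_right, inner_sub_right, key y hy]; congr 1; ring
      _ ≤ ‖v‖ * (ε / (2 * ‖v‖ + 1)) + ‖v‖ * (ε / (2 * ‖v‖ + 1)) := by
          refine (norm_add_le _ _).trans (add_le_add ?_ ?_)
          · exact (norm_inner_le_norm _ _).trans
              (mul_le_mul_of_nonneg_left (by rwa [norm_sub_rev]) (norm_nonneg _))
          · refine (norm_inner_le_norm _ _).trans ?_
            rw [J.norm_map]
            exact mul_le_mul_of_nonneg_left h2 (norm_nonneg _)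
      _ ≤ ε := by
          rw [← two_mul, ← mul_assoc, mul_div_assoc', div_le_iff₀ (by positivity)]
          nlinarith [norm_nonneg v]
  have hg := graph_one h.mod he
  rw [hes.star_eq, ← hv, ← hR, sub_eq_iff_eq_add, ← two_smul ℂ (R v)] at hg
  rw [← hv]
  exact (smul_right_injective H (two_ne_zero (α := ℂ)) hg).symm

/-- The modular group fixes a fixed vector of `R`. -/
theorem U_fix_of_R (h : Modular M η R J U) {v : H} (hv : R v = v) (t : ℝ) : U t v = v := by
  have hT : opT R v = v := by
    rw [opT, cfc_fixed h.R_sa h.R_spec hv continuous_fT', fT]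
    norm_num
  have hc : Continuous fun r => fU t r :=
    continuous_fU.comp (Continuous.prodMk continuous_const continuous_id)
  have hre : Continuous fun r => (fU t r).re := Complex.continuous_re.comp hc
  have him : Continuous fun r => (fU t r).im := Complex.continuous_im.comp hc
  have hd : cfc (fun z : ℂ => fU t z.re) R
      = cfc (fun r => (fU t r).re) R + Complex.I • cfc (fun r => (fU t r).im) R := by
    have h1 : Continuous fun z : ℂ => (((fU t z.re).re : ℝ) : ℂ) :=
      Complex.continuous_ofReal.comp (hre.comp Complex.continuous_re)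
    have h2 : Continuous fun z : ℂ => (((fU t z.re).im : ℝ) : ℂ) :=
      Complex.continuous_ofReal.comp (him.comp Complex.continuous_re)
    rw [cfc_real_eq_complex _ h.R_sa, cfc_real_eq_complex _ h.R_sa,
      ← cfc_smul Complex.I _ R h2.continuousOn,
      ← cfc_add (a := R) (fun z : ℂ => (((fU t z.re).re : ℝ) : ℂ))
        (fun z => Complex.I • (((fU t z.re).im : ℝ) : ℂ)) h1.continuousOn
        (h2.const_smul Complex.I).continuousOn]
    congr 1
    funext z
    rw [smul_eq_mul, mul_comm, Complex.re_add_im]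
  conv_lhs => rw [← hT, ← apply_mul, h.U_T, hd, add_apply, smul_apply,
    cfc_fixed h.R_sa h.R_spec hv hre, cfc_fixed h.R_sa h.R_spec hv him]
  have e1 : fU t 1 = 1 := by norm_num [fU, fT]
  simp [e1]

/-- The modular group commutes with such elements. -/
theorem U_comm_of_commutant (h : StdData M η R J U) {e e' : H →L[ℂ] H} (he : e ∈ M)
    (hes : IsSelfAdjoint e) (he' : e' ∈ M.commutant) (hes' : IsSelfAdjoint e')
    (hee : e η = e' η) (t : ℝ) : U t * e = e * U t := by
  have hz : U t * e * U (-t) - e = 0 := by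
    refine h.std.2.2 _ (sub_mem (h.mod.U_mem t e he) he) ?_
    rw [sub_apply, apply_mul, apply_mul, h.mod.U_xi,
      U_fix_of_R h.mod (R_fix_of_commutant h he hes he' hes' hee) t, sub_self]
  rw [sub_eq_zero] at hz
  calc U t * e = U t * e * (U (-t) * U t) := by rw [U_neg_mul h.mod, mul_one]
    _ = e * U t := by rw [← mul_assoc, hz]

/-- The modular group commutes with an element of `M` whose adjoint acts on `η` as an element of
the commutant, when that element's adjoint acts as the first. -/
theorem U_comm_of_pair (h : StdData M η R J U) {g r : H →L[ℂ] H} (hg : g ∈ M)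
    (hr : r ∈ M.commutant) (h1 : r η = star g η) (h2 : star r η = g η) (t : ℝ) :
    U t * g = g * U t := by
  have sa : ∀ x : H →L[ℂ] H, IsSelfAdjoint (Complex.I • (x - star x)) := fun x => by
    rw [IsSelfAdjoint, star_smul, star_sub, star_star, Complex.star_def, Complex.conj_I,
      ← neg_sub x (star x), smul_neg, neg_smul, neg_neg]
  have ea := U_comm_of_commutant h (add_mem hg (star_mem hg)) (IsSelfAdjoint.add_star_self g)
    (add_mem hr (star_mem hr)) (IsSelfAdjoint.add_star_self r)
    (by rw [add_apply, add_apply, h1, h2, add_comm]) t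
  have eb := U_comm_of_commutant h (smul_mem_vn _ (sub_mem hg (star_mem hg))) (sa g)
    (smul_mem_vn _ (sub_mem (star_mem hr) (star_mem (star_mem hr)))) (sa (star r))
    (by simp only [smul_apply, sub_apply, star_star, h1, h2]) t
  rw [mul_add, add_mul] at ea
  simp only [mul_smul_comm, smul_mul_assoc, mul_sub, sub_mul] at eb
  have eb' := smul_right_injective (H →L[ℂ] H) Complex.I_ne_zero eb
  have e2 : (2 : ℂ) • (U t * g) = (2 : ℂ) • (g * U t) := by
    linear_combination (norm := module) ea + eb'
  exact smul_right_injective (H →L[ℂ] H) (two_ne_zero (α := ℂ)) e2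

/-- The modular group fixes the centre. -/
theorem U_comm_centre (h : StdData M η R J U) {z : H →L[ℂ] H} (hz : z ∈ M)
    (hz' : z ∈ M.commutant) (t : ℝ) : U t * z = z * U t :=
  U_comm_of_pair h hz (star_mem hz') rfl (by rw [star_star]) t

/-- The modular group fixes the pins. -/
theorem Pinned.U_comm_g (P : Pinned M η) {N : VonNeumannAlgebra H} (hP : P.Fits N)
    (h : StdData N η R J U) {g : H →L[ℂ] H} (hg : g ∈ P.Γ.carrier) (t : ℝ) :
    U t * g = g * U t := by
  refine U_comm_of_pair h (hP.memN g hg) (hP.r_memN g hg) (P.r_ξ g hg) ?_ t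
  have e : P.r g (g η) = η := by
    rw [← apply_mul, ← mem_iff_comm.1 (P.memM g hg) _ (P.r_mem g hg) |>.symm, apply_mul,
      P.r_ξ g hg, ← apply_mul, (Unitary.mem_iff.1 (Full.Reduce.Groups.unitary_carrier hg)).2,
      one_apply_eq_self]
  refine (congrArg (fun w => (star (P.r g) : H →L[ℂ] H) w) e).symm.trans ?_
  rw [← apply_mul, (Unitary.mem_iff.1 (P.r_unitary g hg)).1, one_apply_eq_self]

/-- The pins of an algebra fit with it. -/
theorem Pinned.fits_self (P : Pinned M η) : P.Fits M :=
  ⟨P.memM, P.r_mem, fun _ => Iff.rfl⟩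

/-- The modular group fixes the mirrors of the pins. -/
theorem Pinned.U_comm_r (P : Pinned M η) {N : VonNeumannAlgebra H} (hP : P.Fits N)
    (h : StdData N η R J U) {g : H →L[ℂ] H} (hg : g ∈ P.Γ.carrier) (t : ℝ) :
    U t * P.r g = P.r g * U t := by
  have hr := hP.r_memN g hg
  have hU : U t * P.r g * U (-t) - P.r g ∈ N.commutant := by
    refine sub_mem (VonNeumannAlgebra.mem_commutant_iff.2 fun x hx => ?_) hr
    have hx' := h.mod.U_mem (-t) x hx
    rw [neg_neg] at hx'
    have e := VonNeumannAlgebra.mem_commutant_iff.1 hr _ hx'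
    calc x * (U t * P.r g * U (-t))
        = U t * ((U (-t) * x * U t) * P.r g) * U (-t) := by
          simp only [← mul_assoc]
          rw [show U t * U (-t) = 1 by rw [← h.mod.U_add, add_neg_cancel, h.mod.U_zero], one_mul]
      _ = U t * (P.r g * (U (-t) * x * U t)) * U (-t) := by rw [e]
      _ = U t * P.r g * U (-t) * x := by
          simp only [mul_assoc]
          rw [show U t * U (-t) = 1 by rw [← h.mod.U_add, add_neg_cancel, h.mod.U_zero], mul_one]
  have h0 : U t * P.r g * U (-t) - P.r g = 0 := by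
    have hη : (U t * P.r g * U (-t) - P.r g) η = 0 := by
      rw [sub_apply, apply_mul, apply_mul, h.mod.U_xi, P.r_ξ g hg, ← apply_mul,
      P.U_comm_g hP h (Full.Reduce.Groups.star_carrier hg), apply_mul, h.mod.U_xi, sub_self]
    ext v
    refine congrFun (Continuous.ext_on h.std.2.1 (ContinuousLinearMap.continuous _)
      (g := fun _ => 0) continuous_const ?_) v
    rintro _ ⟨x, hx, rfl⟩
    change (U t * P.r g * U (-t) - P.r g) (x η) = 0
    rw [commute_apply hU hx, hη, map_zero]
  rw [sub_eq_zero] at h0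
  calc U t * P.r g = U t * P.r g * (U (-t) * U t) := by rw [U_neg_mul h.mod, mul_one]
    _ = P.r g * U t := by rw [← mul_assoc, h0]

end Vale.Agent.P096.Three
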