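import Vale.Agent.P096.Three.Spec
import Vale.Agent.P096.Three.Core.Sites
import Vale.Agent.P096.Three.Core.Descend
import Vale.Agent.P096.Three.Amb.CommuteSites
import Vale.Agent.P096.Three.PinUp.Amb
import Vale.Agent.P096.Bridge

/-!
P096, all algebras: conjugate stabilisations give conjugate algebras.
-/

open Vale.Agent.P096.Full.Reduce (Groups)

namespace Vale.Agent.P096.Three

namespace Descent

open Core.Sites (lsite_mul lsite_one lsite_add lsite_comm prodGroups prodSet_mem mem_prodGroups)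

variable {H : Type} [NormedAddCommGroup H] [InnerProductSpace ℂ H] [CompleteSpace H]

theorem lsite_smul (n : ℕ) (c : ℂ) (a : Matrix (Fin 2) (Fin 2) ℂ) :
    lsite (H := H) n (c • a) = c • lsite n a := by
  have e : Cent.leftMat (c • a) = c • Cent.leftMat a := by
    ext i j
    fin_cases i <;> fin_cases j <;> simp [Cent.leftMat]
  simp only [lsite, Cent.leftSite, e, Matrix.mul_smul, Matrix.smul_mul, Cent.siteOp_smul]

/-- The difference of the diagonal units. -/
def sgn : Matrix (Fin 2) (Fin 2) ℂ := !![1, 0; 0, -1]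

/-- The exchange of the two states. -/
def flp : Matrix (Fin 2) (Fin 2) ℂ := !![0, 1; 1, 0]

theorem sgn_sq : sgn * sgn = 1 := by simp [sgn, Matrix.one_fin_two]

theorem flp_sq : flp * flp = 1 := by simp [flp, Matrix.one_fin_two]

theorem flp_sgn : flp * sgn = -(sgn * flp) := by simp [flp, sgn]

theorem sgn_star : star sgn = sgn := by
  ext i j; fin_cases i <;> fin_cases j <;> simp [sgn]

theorem flp_star : star flp = flp := by
  ext i j; fin_cases i <;> fin_cases j <;> simp [flp]

open Classical in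
/-- The signed permutation matrices. -/
noncomputable def signed : Finset (Matrix (Fin 2) (Fin 2) ℂ) :=
  {1, -1, sgn, -sgn, flp, -flp, sgn * flp, -(sgn * flp)}

theorem mem_signed {g : Matrix (Fin 2) (Fin 2) ℂ} :
    g ∈ signed ↔ g = 1 ∨ g = -1 ∨ g = sgn ∨ g = -sgn ∨ g = flp ∨ g = -flp ∨
      g = sgn * flp ∨ g = -(sgn * flp) := by simp [signed]

theorem signed_mul : ∀ g ∈ signed, ∀ h ∈ signed, g * h ∈ signed := by
  have a' : ∀ z, sgn * (sgn * z) = z := fun z => by rw [← mul_assoc, sgn_sq, one_mul]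
  have c' : ∀ z, flp * (sgn * z) = -(sgn * (flp * z)) := fun z => by
    rw [← mul_assoc, flp_sgn, neg_mul, mul_assoc]
  intro g hg h hh
  rw [mem_signed] at hg hh ⊢
  rcases hg with rfl | rfl | rfl | rfl | rfl | rfl | rfl | rfl <;>
    rcases hh with rfl | rfl | rfl | rfl | rfl | rfl | rfl | rfl <;>
    simp [mul_assoc, sgn_sq, flp_sq, flp_sgn, a', c']

theorem signed_star : ∀ g ∈ signed, star g ∈ signed ∧ star g * g = 1 ∧ g * star g = 1 := by
  have c' : ∀ z, flp * (sgn * z) = -(sgn * (flp * z)) := fun z => by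
    rw [← mul_assoc, flp_sgn, neg_mul, mul_assoc]
  intro g hg
  simp only [mem_signed] at hg ⊢
  rcases hg with rfl | rfl | rfl | rfl | rfl | rfl | rfl | rfl <;>
    simp [mul_assoc, sgn_sq, flp_sq, flp_sgn, sgn_star, flp_star, c']

open Classical in
/-- The signed permutations of the site `n`. -/
noncomputable def siteSet (n : ℕ) : Finset (AmbH H →L[ℂ] AmbH H) := signed.image (lsite n)

theorem mem_siteSet {n : ℕ} {g : AmbH H →L[ℂ] AmbH H} :
    g ∈ siteSet n ↔ ∃ a ∈ signed, lsite n a = g := by simp [siteSet]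

theorem siteSet_mul (n : ℕ) : ∀ g ∈ siteSet (H := H) n, ∀ h ∈ siteSet n, g * h ∈ siteSet n := by
  intro g hg h hh
  obtain ⟨a, ha, rfl⟩ := mem_siteSet.1 hg
  obtain ⟨b, hb, rfl⟩ := mem_siteSet.1 hh
  exact mem_siteSet.2 ⟨a * b, signed_mul a ha b hb, (lsite_mul n a b).symm⟩

theorem star_lsite (n : ℕ) (a : Matrix (Fin 2) (Fin 2) ℂ) :
    star (lsite (H := H) n a) = lsite n (star a) := Cent.star_leftSite _ _ _

theorem siteSet_star (n : ℕ) : ∀ g ∈ siteSet (H := H) n, star g ∈ siteSet n := by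
  intro g hg
  obtain ⟨a, ha, rfl⟩ := mem_siteSet.1 hg
  exact mem_siteSet.2 ⟨star a, (signed_star a ha).1, (star_lsite n a).symm⟩

theorem siteSet_unitary (n : ℕ) :
    ∀ g ∈ siteSet (H := H) n, g ∈ unitary (AmbH H →L[ℂ] AmbH H) := by
  intro g hg
  obtain ⟨a, ha, rfl⟩ := mem_siteSet.1 hg
  obtain ⟨-, h1, h2⟩ := signed_star a ha
  rw [Unitary.mem_iff, star_lsite, lsite_mul, lsite_mul, h1, h2, lsite_one]
  exact ⟨rfl, rfl⟩

theorem siteSet_comm (n m : ℕ) (hnm : n ≠ m) :
    ∀ g ∈ siteSet (H := H) n, ∀ h ∈ siteSet m, Commute g h := by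
  intro g hg h hh
  obtain ⟨a, -, rfl⟩ := mem_siteSet.1 hg
  obtain ⟨b, -, rfl⟩ := mem_siteSet.1 hh
  exact lsite_comm hnm a b

/-- The groups of signed permutations of finitely many sites. -/
noncomputable def siteGroups : Groups (AmbH H) :=
  prodGroups siteSet (fun n => mem_siteSet.2 ⟨1, mem_signed.2 (Or.inl rfl), lsite_one n⟩)
    siteSet_mul siteSet_star siteSet_unitary siteSet_comm

/-- The groups lie in every stabilisation. -/
theorem siteGroups_mem (M : VonNeumannAlgebra H) : ∀ g ∈ siteGroups.carrier, g ∈ amb M := by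
  rintro g ⟨k, hk⟩
  refine prodSet_mem _ (fun n s hs => ?_) g hk
  obtain ⟨a, -, rfl⟩ := mem_siteSet.1 hs
  exact PinUp.leftSite_mem M n a

/-- What commutes with the groups commutes with the sites. -/
theorem commute_lsite {u : AmbH H →L[ℂ] AmbH H} (h : ∀ g ∈ siteGroups.carrier, Commute u g)
    (n : ℕ) (a : Matrix (Fin 2) (Fin 2) ℂ) : Commute u (lsite n a) := by
  have hs : ∀ b ∈ signed, Commute u (lsite n b) := fun b hb =>
    h _ (mem_prodGroups _ _ _ _ _ _ (n := n) (mem_siteSet.2 ⟨b, hb, rfl⟩))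
  have e : a = ((a 0 0 + a 1 1) / 2) • (1 : Matrix (Fin 2) (Fin 2) ℂ) +
      ((a 0 0 - a 1 1) / 2) • sgn + (((a 0 1 + a 1 0) / 2) • flp +
        ((a 0 1 - a 1 0) / 2) • (sgn * flp)) := by
    ext i j
    fin_cases i <;> fin_cases j <;> simp [sgn, flp] <;> ring
  rw [e]
  simp only [lsite_add, lsite_smul]
  exact (((hs _ (mem_signed.2 (Or.inl rfl))).smul_right _).add_right
    ((hs sgn (mem_signed.2 (by simp))).smul_right _)).add_right
    (((hs flp (mem_signed.2 (by simp))).smul_right _).add_right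
      ((hs (sgn * flp) (mem_signed.2 (by simp))).smul_right _))

end Descent

theorem descentSpec : DescentSpec := by
  obtain ⟨Cf, hCf, hfinal⟩ := Vale.Agent.P096.final.{0}
  refine ⟨min (1 / 8) (1 / (20 * Cf + 1)), 10 * Cf, by positivity, by positivity, ?_⟩
  intro H _ _ _ M N γ c hcl hγ hc hnear
  obtain ⟨u, hu, hu1⟩ := Core.exists_conj hnear
  obtain ⟨u', hu', hn', hcomm, -⟩ := hu.fix_groups Descent.siteGroups
    (Descent.siteGroups_mem M) (Descent.siteGroups_mem N) hu1
    ((hc.trans_le (min_le_left _ _)).le)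
  have hγ0 : 0 ≤ γ := by
    obtain ⟨x, _, hx⟩ := hcl.1 0 (zero_mem _)
      (ContinuousLinearMap.opNorm_le_bound _ zero_le_one fun z => by simp)
    exact (norm_nonneg _).trans hx
  have hc0 : 0 ≤ c := (norm_nonneg _).trans hu1
  have hiso : NearIso M N (2 * (5 * (γ + c))) :=
    Core.nearIso_of_amb (fun x hx => PinUp.ten_mem_amb hx) (fun x hx => PinUp.ten_mem_amb hx)
      (fun _ hX => Amb.exists_of_commute_sites M hX) (fun _ hX => Amb.exists_of_commute_sites N hX)
      hu' (hn'.trans (by linarith)) (Descent.commute_lsite hcomm)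
  have hlt : Cf * (2 * (5 * (γ + c))) < 1 := by
    have h1 := (lt_div_iff₀ (by positivity)).1 (hγ.trans_le (min_le_right _ _))
    have h2 := (lt_div_iff₀ (by positivity)).1 (hc.trans_le (min_le_right _ _))
    nlinarith
  have h := ((hfinal H (2 * (5 * (γ + c))) (by positivity)).2.1 M N hlt).1 hiso
  rwa [show Cf * (2 * (5 * (γ + c))) = 10 * Cf * (γ + c) by ring] at h

end Vale.Agent.P096.Three
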