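import Vale.Agent.P096.Cent.Site

/-!
P096, all algebras: the levels of the states of the stabilisation `Cent.amb`, and its flow.
-/

namespace Vale.Agent.P096.Three

export Cent (Idx AmbH ten put0 diagOp siteW amb)

variable {H : Type} [NormedAddCommGroup H] [InnerProductSpace ℂ H] [CompleteSpace H]

/-- The matrix `a` in the algebra of the site `n`. -/
noncomputable abbrev lsite (n : ℕ) (a : Matrix (Fin 2) (Fin 2) ℂ) : AmbH H →L[ℂ] AmbH H :=
  Cent.leftSite (siteW n) n a

/-- The matrix `a` in the commutant of the algebra of the site `n`. -/
noncomputable abbrev rsite (n : ℕ) (a : Matrix (Fin 2) (Fin 2) ℂ) : AmbH H →L[ℂ] AmbH H :=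
  Cent.rightSite (siteW n) n a

/-- The level of the state `01` of the site `n`: the logarithm of the ratio of the weights. -/
noncomputable def siteGap (n : ℕ) : ℝ := 2 * Real.log (siteW n 0 / siteW n 1)

/-- The level of a state of a site. -/
noncomputable def siteLevel (n : ℕ) (k : Fin 4) : ℝ :=
  if k = 1 then siteGap n else if k = 2 then -siteGap n else 0

/-- The level of a basis state. -/
noncomputable def level (i : Idx) : ℝ := ∑ n ∈ i.support, siteLevel n (i n)

/-- The exchange of the middle states of a site. -/
def flipState : Fin 4 ≃ Fin 4 := Equiv.swap 1 2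

/-- The exchange at every site. -/
noncomputable def flipIdx : Idx ≃ Idx where
  toFun i := i.mapRange flipState (by decide)
  invFun i := i.mapRange flipState (by decide)
  left_inv i := by
    refine Finsupp.ext fun n => ?_
    simp only [Finsupp.mapRange_apply]
    exact Equiv.swap_apply_self _ _ _
  right_inv i := by
    refine Finsupp.ext fun n => ?_
    simp only [Finsupp.mapRange_apply]
    exact Equiv.swap_apply_self _ _ _

/-- The flow of the stabilised algebra. -/
noncomputable def ambU (U : ℝ → (H →L[ℂ] H)) (t : ℝ) : AmbH H →L[ℂ] AmbH H :=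
  diagOp (fun i => Complex.exp (((t * level i : ℝ) : ℂ) * Complex.I)) 1 zero_le_one
    (fun _ => (Complex.norm_exp_ofReal_mul_I _).le) * ten (U t)

end Vale.Agent.P096.Three
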