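import Vale.Agent.P096.Three.Univ.Defs
import Vale.Agent.P096.Two.Rigid

/-!
P096: the question in its own words (the Hausdorff distance of the unit balls, the unitary group of
`H`), with a linear bound, from the statement with absolute constants.
-/

namespace Vale.Agent.P096.Three

universe u

/-- The closed operator-norm unit ball of `M`. -/
def unitBall {H : Type u} [NormedAddCommGroup H] [InnerProductSpace ℂ H] [CompleteSpace H]
    (M : VonNeumannAlgebra H) : Set (H →L[ℂ] H) :=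
  {x | x ∈ M ∧ ‖x‖ ≤ 1}

/-- The Kadison-Kastler distance: the Hausdorff distance of the unit balls. -/
noncomputable def kkDist {H : Type u} [NormedAddCommGroup H] [InnerProductSpace ℂ H]
    [CompleteSpace H] (M N : VonNeumannAlgebra H) : ℝ :=
  Metric.hausdorffDist (unitBall M) (unitBall N)

/-- `u` is unitary and `u M u* = N`. -/
def Conjugates {H : Type u} [NormedAddCommGroup H] [InnerProductSpace ℂ H] [CompleteSpace H]
    (u : H →L[ℂ] H) (M N : VonNeumannAlgebra H) : Prop :=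
  u ∈ unitary (H →L[ℂ] H) ∧ (fun x => u * x * star u) '' (M : Set (H →L[ℂ] H)) = N

/-- Algebras within every positive distance are contained in one another. -/
theorem le_of_nearIncl {H : Type u} [NormedAddCommGroup H] [InnerProductSpace ℂ H] [CompleteSpace H]
    {M N : VonNeumannAlgebra H}
    (h : ∀ η : ℝ, 0 < η → NearIncl (M : Set (H →L[ℂ] H)) N η) :
    (M : Set (H →L[ℂ] H)) ⊆ N := by
  intro x hx
  have hcl : IsClosed (N : Set (H →L[ℂ] H)) := by
    rw [← N.centralizer_centralizer]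
    exact Set.isClosed_centralizer _
  refine hcl.closure_subset (Metric.mem_closure_iff.2 fun η hη => ?_)
  obtain ⟨y, hy, hxy⟩ := Two.near_scaled (S := M.toStarSubalgebra) (T := N.toStarSubalgebra)
    (c := η / (2 * (‖x‖ + 1))) (fun z hz h1 => h _ (by positivity) z hz h1) hx
  refine ⟨y, hy, ?_⟩
  rw [dist_eq_norm]
  calc ‖x - y‖ ≤ η / (2 * (‖x‖ + 1)) * ‖x‖ := hxy
    _ ≤ η / (2 * (‖x‖ + 1)) * (‖x‖ + 1) := by gcongr; linarith
    _ = η / 2 := by field_simp
    _ < η := half_lt_self hη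

/-- The question in its own words, with a linear bound. -/
theorem literal (h : Univ.AllTarget.{u}) :
    ∃ δ C : ℝ, 0 < δ ∧ ∀ (H : Type u) [NormedAddCommGroup H]
      [InnerProductSpace ℂ H] [CompleteSpace H] (M N : VonNeumannAlgebra H),
      kkDist M N < δ → ∃ u : H →L[ℂ] H, ‖u - 1‖ ≤ C * kkDist M N ∧ Conjugates u M N := by
  obtain ⟨δ, C, hδ, hC⟩ := h
  refine ⟨δ / 2, 2 * C, half_pos hδ, ?_⟩
  intro H _ _ _ M N hd
  simp only [kkDist, unitBall] at hd ⊢
  set d := Metric.hausdorffDist {x : H →L[ℂ] H | x ∈ M ∧ ‖x‖ ≤ 1}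
    {y : H →L[ℂ] H | y ∈ N ∧ ‖y‖ ≤ 1} with hdef
  have hb : ∀ M : VonNeumannAlgebra H,
      Bornology.IsBounded {x : H →L[ℂ] H | x ∈ M ∧ ‖x‖ ≤ 1} := fun M =>
    Metric.isBounded_closedBall.subset fun y hy => mem_closedBall_zero_iff.2 hy.2
  have hn : ∀ M : VonNeumannAlgebra H, {x : H →L[ℂ] H | x ∈ M ∧ ‖x‖ ≤ 1}.Nonempty := fun M =>
    ⟨0, zero_mem M, by simp⟩
  have hincl : ∀ (M N : VonNeumannAlgebra H) (η : ℝ),
      Metric.hausdorffDist {x : H →L[ℂ] H | x ∈ M ∧ ‖x‖ ≤ 1} {y : H →L[ℂ] H | y ∈ N ∧ ‖y‖ ≤ 1}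
        < η → NearIncl (M : Set (H →L[ℂ] H)) N η := fun M N η h x hx h1 => by
    obtain ⟨y, hy, hd⟩ := Metric.exists_dist_lt_of_hausdorffDist_lt
      (show x ∈ {x : H →L[ℂ] H | x ∈ M ∧ ‖x‖ ≤ 1} from ⟨hx, h1⟩) h
      (Metric.hausdorffEDist_ne_top_of_nonempty_of_bounded (hn M) (hn N) (hb M) (hb N))
    exact ⟨y, hy.1, le_of_lt (by simpa [opDist, dist_eq_norm] using hd)⟩
  rcases (Metric.hausdorffDist_nonneg (s := {x : H →L[ℂ] H | x ∈ M ∧ ‖x‖ ≤ 1})
    (t := {y : H →L[ℂ] H | y ∈ N ∧ ‖y‖ ≤ 1})).eq_or_lt with h0 | hpos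
  · have hMN : (M : Set (H →L[ℂ] H)) = N := Set.Subset.antisymm
      (le_of_nearIncl fun η hη => hincl M N η (h0 ▸ hη))
      (le_of_nearIncl fun η hη => hincl N M η (by rw [Metric.hausdorffDist_comm, ← h0]; exact hη))
    refine ⟨1, ?_, one_mem _, ?_⟩
    · rw [sub_self, norm_zero, hdef, ← h0, mul_zero]
    · simp [hMN]
  · rw [← hdef] at hpos
    obtain ⟨u, hu, hu1, h1, h2⟩ := hC H M N (2 * d) (by linarith)
      ⟨hincl M N (2 * d) (by rw [← hdef]; linarith),
        hincl N M (2 * d) (by rw [Metric.hausdorffDist_comm, ← hdef]; linarith)⟩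
    have hU := unitary_of_isUnitaryOp hu
    have hu1' : ‖u - 1‖ ≤ C * (2 * d) := hu1
    refine ⟨u, hu1'.trans_eq (by ring), hU, Set.Subset.antisymm ?_ ?_⟩
    · rintro _ ⟨x, hx, rfl⟩
      obtain ⟨y, hy, hxy⟩ := h1 x hx
      show u * x * star u ∈ N
      rw [← eq_of_intertwines hU hxy]
      exact hy
    · intro y hy
      obtain ⟨x, hx, hxy⟩ := h2 y hy
      exact ⟨x, hx, (eq_of_intertwines hU hxy).symm⟩

end Vale.Agent.P096.Three
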