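import Vale.Agent.P096.Three.Spec
import Vale.Agent.P096.Three.Move.Standard
import Vale.Agent.P096.Full.Reduce.Moves
import Vale.Agent.P096.Two.Rigid

/-!
P096, all algebras: the second algebra is moved to fit the pins, with the same centre and the same
cyclic separating vector.
-/

open scoped InnerProductSpace
open Filter Topology
open Vale.Agent.P096.Full.Reduce
open Vale.Agent.P096.Two
open Vale.Agent.P104.Discrete

namespace Vale.Agent.P096.Three.Move

variable {H : Type} [NormedAddCommGroup H] [InnerProductSpace ℂ H] [CompleteSpace H]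
variable {M : VonNeumannAlgebra H} {ξ : H}

/-- A conjugacy onto a moved algebra gives one onto the algebra. -/
lemma nearConj_conjVN {N : VonNeumannAlgebra H} {u : H →L[ℂ] H}
    (hu : u ∈ unitary (H →L[ℂ] H)) {δ : ℝ} (hd : ‖u - 1‖ ≤ δ) {c : ℝ}
    (h : NearConj M (conjVN N u hu) c) : NearConj M N (c + δ) := by
  obtain ⟨w, hw, hw1, h1, h2⟩ := h
  have hW := unitary_of_isUnitaryOp hw
  have hU : u * w ∈ unitary (H →L[ℂ] H) := mul_mem hu hW
  have e : ∀ x : H →L[ℂ] H, u * w * x * star (u * w) = u * (w * x * star w) * star u := fun x => by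
    simp only [star_mul, mul_assoc]
  refine ⟨u * w, isUnitaryOp_of_unitary hU, ?_, fun x hx => ?_, fun y hy => ?_⟩
  · show ‖u * w - 1‖ ≤ c + δ
    have hw1' : ‖w - 1‖ ≤ c := hw1
    rw [show u * w - 1 = (u - 1) * w + (w - 1) by noncomm_ring]
    refine (norm_add_le _ _).trans ?_
    have := (norm_mul_le (u - 1) w).trans
      (mul_le_of_le_one_right (norm_nonneg _) (norm_le_one hW))
    linarith
  · obtain ⟨z, hz, hxz⟩ := h1 x hx
    rw [eq_of_intertwines hW hxz, mem_conjVN] at hz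
    exact ⟨_, hz, intertwines_of_eq hU (e x).symm⟩
  · have hz : star u * y * u ∈ conjVN N u hu :=
      mem_conjVN.2 (by rwa [(conj_cancel hu y).2])
    obtain ⟨x, hx, hxz⟩ := h2 _ hz
    refine ⟨x, hx, intertwines_of_eq hU ?_⟩
    rw [e, ← eq_of_intertwines hW hxz, (conj_cancel hu y).2]

/-- An operator commuting with the pins near `M` is near the centre. -/
lemma central_near (P : Pinned M ξ) {f x : H →L[ℂ] H} (hf : ∀ g ∈ P.Γ.carrier, f * g = g * f)
    (hx : x ∈ M) {ε : ℝ} (hfx : ‖f - x‖ ≤ ε) :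
    ∃ z ∈ M, z ∈ M.commutant ∧ ‖f - z‖ ≤ ε := by
  obtain ⟨z, hz, hz', hlim⟩ := P.central x hx
  refine ⟨z, hz, hz', ?_⟩
  have hm : ∀ m, ‖avg P.Γ m (fun g => g * x * star g) - f‖ ≤ ε := fun m => by
    have e : avg P.Γ m (fun g => g * x * star g) - f =
        avg P.Γ m (fun g => g * x * star g - f) := by
      rw [avg, avg, Finset.sum_sub_distrib, smul_sub]
      congr 1
      exact (avg_const m f).symm
    rw [e]
    refine norm_avg_le fun g hg => ?_
    have hu := Groups.unitary_carrier (Γ := P.Γ) ⟨m, hg⟩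
    rw [show g * x * star g - f = g * (x - f) * star g by
      rw [mul_sub, sub_mul, ← hf g ⟨m, hg⟩, mul_assoc f, (Unitary.mem_iff.1 hu).2, mul_one]]
    refine ((norm_mul_le _ _).trans (mul_le_of_le_one_right (norm_nonneg _)
      (norm_le_one (Unitary.star_mem hu)))).trans ?_
    refine ((norm_mul_le _ _).trans (mul_le_of_le_one_left (norm_nonneg _) (norm_le_one hu))).trans ?_
    rwa [norm_sub_rev]
  rw [norm_sub_rev]
  refine (z - f).opNorm_le_bound ((norm_nonneg _).trans hfx) fun v => ?_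
  refine le_of_tendsto' (((hlim v).sub_const (f v)).norm) fun m => ?_
  exact (avg P.Γ m (fun g => g * x * star g) - f).le_of_opNorm_le (hm m) v

lemma isClosed_vn (A : VonNeumannAlgebra H) : IsClosed (A : Set (H →L[ℂ] H)) := by
  rw [← A.centralizer_centralizer]
  exact Set.isClosed_centralizer _

end Vale.Agent.P096.Three.Move

namespace Vale.Agent.P096.Three

open Move

/-- MOVE. -/
theorem moveSpec : MoveSpec := by
  obtain ⟨Cc, hCc, hcn⟩ := commutant_near.{0}
  set K : ℝ := 1093 + 4 * (273 * (Cc * 1093)) with hK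
  have hK0 : 0 ≤ K := by positivity
  refine ⟨1 / (2000 * (Cc + 1) * (K + 1)), K + (273 + 273 * (Cc * 1093)), by positivity,
    by positivity, ?_⟩
  intro H _ _ _ _ M N ξ P γ hstd hlt hclose
  obtain ⟨hξ1, hd, hsep⟩ := hstd
  have hc0 : Close M N γ := ⟨fun x hx h1 => hclose.1 x hx h1, fun x hx h1 => hclose.2 x hx h1⟩
  have hγ0 := hc0.nonneg
  rw [lt_div_iff₀ (by positivity)] at hlt
  have hsmall : γ ≤ 1 / 2000 ∧ Cc * (1093 * γ) ≤ 1 / 672 ∧ K * γ < 1 / 2 ∧
      Cc * (K * γ) < 1 / 2 := by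
    have a1 : γ * (2000 * 1 * 1) ≤ γ * (2000 * (Cc + 1) * (K + 1)) := by
      gcongr <;> linarith
    have a2 : γ * (2000 * Cc * 1094) ≤ γ * (2000 * (Cc + 1) * (K + 1)) := by
      gcongr
      · linarith
      · have : 0 ≤ Cc * 1093 := by positivity
        linarith
    have a3 : γ * (2000 * 1 * K) ≤ γ * (2000 * (Cc + 1) * (K + 1)) := by
      gcongr <;> linarith
    have a4 : γ * (2000 * Cc * K) ≤ γ * (2000 * (Cc + 1) * (K + 1)) := by
      gcongr <;> linarith
    have a5 : 0 ≤ Cc * γ := by positivity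
    refine ⟨?_, ?_, ?_, ?_⟩ <;> nlinarith
  obtain ⟨hγ1, hγc, hKγ, hCKγ⟩ := hsmall
  obtain ⟨D, hD, hgen⟩ := exists_central_gen (M := M) hd
  set S := symGroups _ (fun i => isCSym_proj (hD i)) with hS
  have hSM : ∀ b ∈ S.carrier, b ∈ M ∧ b ∈ M.commutant := fun b hb => by
    obtain ⟨h1, h2, -, -⟩ := symGroups_isCSym hb
    exact ⟨h1, VonNeumannAlgebra.mem_commutant_iff.2 fun x hx => (h2 x hx).symm⟩
  have hDS : ∀ a : H →L[ℂ] H, (∀ b ∈ S.carrier, b * a = a * b) → ∀ i, a * D i = D i * a :=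
    fun a ha i => by
      have h : (1 - (2 : ℂ) • D i) * a = a * (1 - (2 : ℂ) • D i) := ha _ (mem_symGroups i)
      rw [mul_sub, sub_mul, mul_one, one_mul, mul_smul_comm, smul_mul_assoc, sub_right_inj] at h
      exact (smul_right_injective _ two_ne_zero h).symm
  -- the first move
  set Γ₁ := join P.Γ S fun a ha b hb =>
    VonNeumannAlgebra.mem_commutant_iff.1 (hSM b hb).2 a (P.memM a ha) with hΓ₁
  have hΓ₁M : ∀ a ∈ Γ₁.carrier, a ∈ M := fun a ha => by
    obtain ⟨g, hg, b, hb, rfl⟩ := mem_join ha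
    exact mul_mem (P.memM g hg) (hSM b hb).1
  obtain ⟨u₁, hu₁, hn₁, -, h₁⟩ := near_group N Γ₁ (γ := γ) (by linarith) fun g hg =>
    hc0.1 g (hΓ₁M g hg) (norm_le_one (Groups.unitary_carrier hg))
  set N₁ := conjVN N u₁ hu₁ with hN₁
  have hg₁ : ∀ g ∈ P.Γ.carrier, g ∈ N₁ := fun g hg =>
    mem_conjVN.2 (h₁ g (mem_cc (left_mem_join hg)))
  have hz₁ : ∀ z ∈ M, z ∈ M.commutant → z ∈ N₁ := fun z hz hz' =>
    mem_conjVN.2 (h₁ z fun a ha =>
      hgen z hz hz' a (hDS a fun b hb => ha b (right_mem_join hb)))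
  have hc₁ : Close M N₁ (1093 * γ) := by
    have := hc0.conj (by linarith) hu₁ hn₁
    rwa [show γ + 4 * (273 * γ) = 1093 * γ by ring] at this
  -- the second move
  set Γ₂ := join (mirrors P hd) S fun a ha b hb => by
    obtain ⟨g, hg, rfl⟩ := (mem_mirrors P hd).1 ha
    exact (r_comm P hd hg (hSM b hb).1).symm
  have hΓ₂M : ∀ a ∈ Γ₂.carrier, a ∈ M.commutant := fun a ha => by
    obtain ⟨a', ha', b, hb, rfl⟩ := mem_join ha
    obtain ⟨g, hg, rfl⟩ := (mem_mirrors P hd).1 ha'
    exact mul_mem (P.r_mem g hg) (hSM b hb).2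
  obtain ⟨u₂, hu₂, hn₂, hmem₂, h₂⟩ :=
    near_group N₁.commutant Γ₂ (γ := Cc * (1093 * γ)) hγc fun a ha => by
      obtain ⟨b, hb, hab⟩ := hcn H N₁.toStarSubalgebra M.toStarSubalgebra _ (by positivity)
        hc₁.2 a (by
          have := hΓ₂M a ha
          rwa [← SetLike.mem_coe, VonNeumannAlgebra.coe_commutant] at this)
        (norm_le_one (Groups.unitary_carrier ha))
      exact ⟨b, by rw [← SetLike.mem_coe, VonNeumannAlgebra.coe_commutant]; exact hb, hab⟩
  set N' := conjVN N₁ u₂ hu₂ with hN'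
  have hkeep : ∀ z ∈ N₁, (∀ a ∈ Γ₂.carrier, a * z = z * a) → z ∈ N' := fun z hz hz' => by
    have hcomm : z * u₂ = u₂ * z := hmem₂ z fun a ha => by
      rcases ha with ha | ha
      · exact (VonNeumannAlgebra.mem_commutant_iff.1 ha z hz).symm
      · exact hz' a ha
    rw [hN', mem_conjVN, ← hcomm, mul_assoc, (Unitary.mem_iff.1 hu₂).2, mul_one]
    exact hz
  have hkeep' : ∀ z ∈ Set.centralizer (Set.centralizer Γ₂.carrier), z ∈ N'.commutant :=
    fun z hz => by
      have := h₂ z hz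
      rw [← SetLike.mem_coe, VonNeumannAlgebra.coe_commutant] at this ⊢
      exact mem_commutant_conjVN this
  have memN : ∀ g ∈ P.Γ.carrier, g ∈ N' := fun g hg => hkeep g (hg₁ g hg) fun a ha =>
    (VonNeumannAlgebra.mem_commutant_iff.1 (hΓ₂M a ha) g (P.memM g hg)).symm
  have r_memN : ∀ g ∈ P.Γ.carrier, P.r g ∈ N'.commutant := fun g hg =>
    hkeep' _ (mem_cc (left_mem_join ((mem_mirrors P hd).2 ⟨g, hg, rfl⟩)))
  have hzN : ∀ z ∈ M, z ∈ M.commutant → z ∈ N' ∧ z ∈ N'.commutant := fun z hz hz' =>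
    ⟨hkeep z (hz₁ z hz hz') fun a ha =>
      (VonNeumannAlgebra.mem_commutant_iff.1 (hΓ₂M a ha) z hz).symm,
    hkeep' z fun a ha => hgen z hz hz' a (hDS a fun b hb => ha b (right_mem_join hb))⟩
  have hc' : Close M N' (K * γ) := by
    have := hc₁.conj (by linarith) hu₂ hn₂
    rwa [show 1093 * γ + 4 * (273 * (Cc * (1093 * γ))) = K * γ by rw [hK]; ring] at this
  -- the centres
  have hzM : ∀ w ∈ N', w ∈ N'.commutant → w ∈ M ∧ w ∈ M.commutant := by
    intro w hw hw'
    have key : ∀ n : ℕ, ∃ z ∈ M, z ∈ M.commutant ∧ ‖w - z‖ ≤ (K * γ) ^ n * ‖w‖ := by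
      intro n
      induction n with
      | zero => exact ⟨0, zero_mem M, zero_mem _, by simp⟩
      | succ n ih =>
        obtain ⟨z, hz, hz', hwz⟩ := ih
        obtain ⟨z1, z2⟩ := hzN z hz hz'
        obtain ⟨x, hx, hxw⟩ := near_scaled (S := N'.toStarSubalgebra) (T := M.toStarSubalgebra)
          (fun a ha h1 => hc'.2 a ha h1) (sub_mem hw z1 : w - z ∈ N')
        obtain ⟨t, ht, ht', hwt⟩ := central_near P (f := w - z) (fun g hg =>
          (VonNeumannAlgebra.mem_commutant_iff.1 (sub_mem hw' z2) g (memN g hg)).symm) hx hxw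
        refine ⟨z + t, add_mem hz ht, add_mem hz' ht', ?_⟩
        rw [show w - (z + t) = w - z - t by abel, pow_succ, mul_comm ((K * γ) ^ n), mul_assoc]
        exact hwt.trans (mul_le_mul_of_nonneg_left hwz (by positivity))
    choose z hz hz' hwz using key
    have hlim : Tendsto z atTop (𝓝 w) := by
      refine tendsto_iff_norm_sub_tendsto_zero.2 (squeeze_zero (fun n => norm_nonneg _)
        (fun n => (norm_sub_rev _ _).trans_le (hwz n)) ?_)
      have := (tendsto_pow_atTop_nhds_zero_of_lt_one (r := K * γ) (by positivity)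
        (by linarith)).mul_const ‖w‖
      rwa [zero_mul] at this
    exact ⟨(isClosed_vn M).mem_of_tendsto hlim (Eventually.of_forall hz),
      (isClosed_vn M.commutant).mem_of_tendsto hlim (Eventually.of_forall hz')⟩
  have fits : P.Fits N' :=
    ⟨memN, r_memN, fun z => ⟨fun h => hzN z h.1 h.2, fun h => hzM z h.1 h.2⟩⟩
  -- the vector
  have hgξ : ∀ g ∈ P.Γ.carrier, star (P.r g) ξ = g ξ := fun g hg => by
    rw [r_star P hd hg, P.r_ξ _ (Groups.star_carrier hg), star_star]
  have hcom : ∀ a ∈ N', ∀ b ∈ N'.commutant, ∀ v : H, b (a v) = a (b v) := fun a ha b hb v =>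
    (DFunLike.congr_fun (VonNeumannAlgebra.mem_commutant_iff.1 hb a ha) v).symm
  have hcyc : spanProj {v | ∃ x ∈ N', x ξ = v} = 1 := by
    set V : Set H := {v | ∃ x ∈ N', x ξ = v} with hV
    have he : spanProj V ∈ N'.commutant := spanProj_mem N'.commutant V fun a ha v hv => by
      rw [VonNeumannAlgebra.commutant_commutant] at ha
      obtain ⟨x, hx, rfl⟩ := hv
      exact Submodule.le_topologicalClosure _ (Submodule.subset_span ⟨a * x, mul_mem ha hx, rfl⟩)
    have heN : ∀ a ∈ N', spanProj V * a = a * spanProj V := fun a ha =>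
      (VonNeumannAlgebra.mem_commutant_iff.1 he a ha).symm
    obtain ⟨y, hy, hey⟩ := hcn H M.toStarSubalgebra N'.toStarSubalgebra (K * γ) (by positivity)
      hc'.1 (spanProj V) (by
        rw [← SetLike.mem_coe, VonNeumannAlgebra.coe_commutant] at he
        exact he) (spanProj_isStarProjection V).norm_le
    refine eq_one P hd (spanProj_isStarProjection V)
      (spanProj_apply_mem ⟨1, one_mem N', rfl⟩) (fun g hg => ⟨heN g (memN g hg), ?_⟩)
      (fun z hz hz' => heN z (hzN z hz hz').1)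
      (by rw [← SetLike.mem_coe, VonNeumannAlgebra.coe_commutant]; exact hy) hey (by linarith)
    refine spanProj_comm ?_ ?_ <;> rintro _ ⟨x, hx, rfl⟩
    · refine ⟨x * star g, mul_mem hx (star_mem (memN g hg)), ?_⟩
      rw [mul_apply_eq_comp, ← P.r_ξ g hg, hcom x hx _ (r_memN g hg)]
    · refine ⟨x * g, mul_mem hx (memN g hg), ?_⟩
      rw [mul_apply_eq_comp, ← hgξ g hg, hcom x hx _ (star_mem (r_memN g hg))]
  have hsepN : spanProj {v | ∃ x ∈ N'.commutant, x ξ = v} = 1 := by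
    set V : Set H := {v | ∃ x ∈ N'.commutant, x ξ = v} with hV
    have hf : spanProj V ∈ N' := spanProj_mem N' V fun a ha v hv => by
      obtain ⟨x, hx, rfl⟩ := hv
      exact Submodule.le_topologicalClosure _ (Submodule.subset_span ⟨a * x, mul_mem ha hx, rfl⟩)
    have hfN : ∀ a ∈ N'.commutant, spanProj V * a = a * spanProj V := fun a ha =>
      VonNeumannAlgebra.mem_commutant_iff.1 ha _ hf
    have hfg : ∀ g ∈ P.Γ.carrier, spanProj V * g = g * spanProj V := fun g hg => by
      refine spanProj_comm ?_ ?_ <;> rintro _ ⟨x, hx, rfl⟩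
      · refine ⟨x * star (P.r g), mul_mem hx (star_mem (r_memN g hg)), ?_⟩
        rw [mul_apply_eq_comp, hgξ g hg, hcom g (memN g hg) x hx]
      · refine ⟨x * P.r g, mul_mem hx (r_memN g hg), ?_⟩
        rw [mul_apply_eq_comp, P.r_ξ g hg, hcom (star g) (star_mem (memN g hg)) x hx]
    obtain ⟨y, hy, hey⟩ := hc'.2 _ hf (spanProj_isStarProjection V).norm_le
    obtain ⟨z, hz, hz', hfz⟩ := central_near P hfg hy hey
    exact eq_one P hd (spanProj_isStarProjection V)
      (spanProj_apply_mem ⟨1, one_mem _, rfl⟩)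
      (fun g hg => ⟨hfg g hg, hfN _ (r_memN g hg)⟩)
      (fun a ha ha' => hfN a (hzN a ha ha').2) hz' hfz hKγ
  have hstd' : VP132.IsStandardVector H N' ξ := by
    refine ⟨hξ1, dense_of_spanProj N' ξ hcyc, fun a ha h0 => ?_⟩
    refine ContinuousLinearMap.ext fun v => congrFun (Continuous.ext_on
      (dense_of_spanProj N'.commutant ξ hsepN) a.continuous continuous_const ?_) v
    rintro _ ⟨x, hx, rfl⟩
    show a (x ξ) = 0
    rw [← hcom a ha x hx, h0, map_zero]
  refine ⟨N', fits, hstd', ⟨fun x hx h1 => ?_, fun x hx h1 => ?_⟩, fun c hc => ?_⟩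
  · obtain ⟨y, hy, hxy⟩ := hc'.1 x hx h1
    exact ⟨y, hy, hxy.trans (mul_le_mul_of_nonneg_right (by
      have : 0 ≤ Cc * 1093 := by positivity
      linarith) hγ0)⟩
  · obtain ⟨y, hy, hxy⟩ := hc'.2 x hx h1
    exact ⟨y, hy, hxy.trans (mul_le_mul_of_nonneg_right (by
      have : 0 ≤ Cc * 1093 := by positivity
      linarith) hγ0)⟩
  · have hc2 := nearConj_conjVN hu₁ hn₁ (nearConj_conjVN hu₂ hn₂ hc)
    obtain ⟨w, hw, hw1, e1, e2⟩ := hc2
    refine ⟨w, hw, hw1.trans ?_, e1, e2⟩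
    nlinarith [mul_nonneg hK0 hγ0]

end Vale.Agent.P096.Three
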