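import Vale.Agent.P096.Three.Spec
import Vale.Agent.P096.Cent.Model
import Vale.Agent.P096.Cent.Pin
import Vale.Agent.P096.Cent.Separable

/-!
P096, all algebras: stabilised algebras have pinned standard vectors.
-/

namespace Vale.Agent.P096.Three

/-- PIN. -/
theorem pinSpec : PinSpec := by
  intro H _ _ _ _ M ξ hs
  obtain ⟨R, J, U, hm, hstd, hA, hf⟩ :=
    Cent.exists_amb_data (M := M) (ξ := ξ) ⟨hs.2.1, hs.2.2⟩ hs.1
  have := Cent.separableSpace_amb (H := H)
  exact Cent.exists_pinned hm hstd hf hA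

end Vale.Agent.P096.Three
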