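import Vale.Agent.P096.Three.Spec
import Vale.Agent.P096.Three.PinUp.Amb
import Vale.Agent.P096.Three.PinUp.Mean

/-!
P096, all algebras: the pins of an algebra and the permutations of the sites of each family pin
its stabilisation.
-/

open scoped InnerProductSpace
open Filter Topology

namespace Vale.Agent.P096.Three.PinUp

open Cent (Idx AmbH siteW ten put0 amb)
open Full.Reduce (Groups avg avg_const avg_congr)

variable {H : Type} [NormedAddCommGroup H] [InnerProductSpace ℂ H] [CompleteSpace H]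

/-- The permutations of the first `k` sites within their families. -/
noncomputable def perms (k : ℕ) : Finset (Equiv.Perm (Fin k)) :=
  Finset.univ.filter fun π => ∀ m : Fin k, (π m : ℕ).unpair.1 = (m : ℕ).unpair.1

theorem mem_perms {k : ℕ} {π : Equiv.Perm (Fin k)} :
    π ∈ perms k ↔ ∀ m : Fin k, (π m : ℕ).unpair.1 = (m : ℕ).unpair.1 := by
  simp [perms]

theorem one_mem_perms (k : ℕ) : (1 : Equiv.Perm (Fin k)) ∈ perms k := mem_perms.2 fun _ => rfl

theorem mul_mem_perms {k : ℕ} {π ρ : Equiv.Perm (Fin k)} (hπ : π ∈ perms k) (hρ : ρ ∈ perms k) :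
    π * ρ ∈ perms k :=
  mem_perms.2 fun m => (mem_perms.1 hπ (ρ m)).trans (mem_perms.1 hρ m)

theorem inv_mem_perms {k : ℕ} {π : Equiv.Perm (Fin k)} (hπ : π ∈ perms k) : π⁻¹ ∈ perms k :=
  mem_perms.2 fun m => by
    have h := mem_perms.1 hπ (π⁻¹ m)
    rwa [show π (π⁻¹ m) = m from π.apply_symm_apply m, eq_comm] at h

theorem extend_mem_perms {k : ℕ} {π : Equiv.Perm (Fin k)} (hπ : π ∈ perms k) :
    extend π ∈ perms (k + 1) :=
  mem_perms.2 fun m => by
    refine Fin.lastCases ?_ (fun j => ?_) m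
    · rw [extend_last]
    · rw [extend_castSucc, Fin.val_castSucc, Fin.val_castSucc]; exact mem_perms.1 hπ j

theorem put0_fixed {k : ℕ} {π : Equiv.Perm (Fin k)} (hπ : π ∈ perms k) (v : H) :
    (perm (H := H) leftF π * perm (H := H) rightF π) (put0 v) = put0 v := by
  refine lp.ext (funext fun i => ?_)
  rw [perm_left_right π fun m => congrArg Cent.famW (mem_perms.1 hπ m)]
  rcases eq_or_ne i 0 with rfl | hi
  · have e : ovr k (0 : Idx) (fun m => (0 : Idx) (π m)) = 0 := by
      refine Finsupp.ext fun m => ?_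
      rcases lt_or_ge m k with h | h
      · have := ovr_apply k (0 : Idx) (fun m => (0 : Idx) (π m)) ⟨m, h⟩
        simpa using this
      · rw [ovr_beyond k _ _ m h]
    rw [e]
  · rw [put0_apply_ne hi, put0_apply_ne]
    intro h0
    refine hi (Finsupp.ext fun m => ?_)
    rcases lt_or_ge m k with h | h
    · have := ovr_apply k i (fun j => i (π j)) (π.symm ⟨m, h⟩)
      rw [h0, Equiv.apply_symm_apply] at this
      simpa using this.symm
    · have := ovr_beyond k i (fun j => i (π j)) m h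
      rw [h0] at this
      simpa using this.symm

variable {M : VonNeumannAlgebra H} {ξ : H} (P : Pinned M ξ)

open Classical in
/-- The `k`-th group. -/
noncomputable def G2 (k : ℕ) : Finset (AmbH H →L[ℂ] AmbH H) :=
  (P.Γ.G k ×ˢ perms k).image fun p => ten p.1 * perm leftF p.2

theorem mem_G2 {k : ℕ} {g : AmbH H →L[ℂ] AmbH H} :
    g ∈ G2 P k ↔ ∃ a ∈ P.Γ.G k, ∃ π ∈ perms k, g = ten a * perm leftF π := by
  classical
  simp only [G2, Finset.mem_image, Finset.mem_product, Prod.exists]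
  constructor
  · rintro ⟨a, π, ⟨ha, hπ⟩, rfl⟩; exact ⟨a, ha, π, hπ, rfl⟩
  · rintro ⟨a, ha, π, hπ, rfl⟩; exact ⟨a, π, ⟨ha, hπ⟩, rfl⟩

omit [CompleteSpace H] in
theorem ten_one : ten (1 : H →L[ℂ] H) = 1 :=
  ContinuousLinearMap.ext fun f => lp.ext (funext fun i => rfl)

theorem ten_perm (a : H →L[ℂ] H) (F : Factor) {k : ℕ} (π : Equiv.Perm (Fin k)) :
    Commute (ten a) (perm F π) :=
  perm_commute π fun _ _ => Cent.ten_siteOp a _ _

/-- The groups of the stabilisation. -/
noncomputable def groups : Groups (AmbH H) where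
  G := G2 P
  one_mem k := (mem_G2 P).2 ⟨1, P.Γ.one_mem k, 1, one_mem_perms k, by
    rw [perm_one, mul_one, ten_one]⟩
  mul_mem k g hg h hh := by
    obtain ⟨a, ha, π, hπ, rfl⟩ := (mem_G2 P).1 hg
    obtain ⟨b, hb, ρ, hρ, rfl⟩ := (mem_G2 P).1 hh
    refine (mem_G2 P).2 ⟨a * b, P.Γ.mul_mem k a ha b hb, π * ρ, mul_mem_perms hπ hρ, ?_⟩
    rw [← Cent.ten_mul, ← perm_mul, mul_assoc, ← mul_assoc (perm leftF π),
      ← (ten_perm b leftF π).eq]
    simp only [mul_assoc]
  star_mem k g hg := by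
    obtain ⟨a, ha, π, hπ, rfl⟩ := (mem_G2 P).1 hg
    refine (mem_G2 P).2 ⟨star a, P.Γ.star_mem k a ha, π⁻¹, inv_mem_perms hπ, ?_⟩
    rw [star_mul, star_perm, Cent.star_ten, (ten_perm (star a) leftF π⁻¹).eq]
  mem_unitary k g hg := by
    obtain ⟨a, ha, π, hπ, rfl⟩ := (mem_G2 P).1 hg
    refine mul_mem ?_ (perm_unitary _ _)
    have hu := Unitary.mem_iff.1 (P.Γ.mem_unitary k a ha)
    rw [Unitary.mem_iff, Cent.star_ten, Cent.ten_mul, Cent.ten_mul, hu.1, hu.2, ten_one]
    exact ⟨rfl, rfl⟩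
  mono := fun m n h => monotone_nat_of_le_succ (f := G2 P) (fun k g hg => by
    obtain ⟨a, ha, π, hπ, rfl⟩ := (mem_G2 P).1 hg
    exact (mem_G2 P).2 ⟨a, P.Γ.mono k (k + 1) k.le_succ ha, extend π, extend_mem_perms hπ, by
      rw [perm_extend]⟩) h

theorem mem_groups {g : AmbH H →L[ℂ] AmbH H} :
    g ∈ (groups P).carrier ↔
      ∃ k, ∃ a ∈ P.Γ.G k, ∃ π ∈ perms k, g = ten a * perm leftF π :=
  ⟨fun ⟨k, hk⟩ => ⟨k, (mem_G2 P).1 hk⟩, fun ⟨k, hk⟩ => ⟨k, (mem_G2 P).2 hk⟩⟩

/-- The mirror of `ten a * perm π`. -/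
theorem mirror_apply {k : ℕ} {a : H →L[ℂ] H} (ha : a ∈ P.Γ.G k) {π : Equiv.Perm (Fin k)}
    (hπ : π ∈ perms k) :
    (perm (H := H) rightF π * ten (P.r a)) (put0 ξ) =
      star (ten a * perm (H := H) leftF π) (put0 ξ) := by
  have hR : perm (H := H) rightF π (put0 ξ) = star (perm (H := H) leftF π) (put0 ξ) := by
    conv_rhs => rw [← put0_fixed hπ ξ]
    rw [← mul_apply_eq_comp, ← mul_assoc, (Unitary.mem_iff.1 (perm_unitary (H := H) leftF π)).1, one_mul]
  rw [mul_apply_eq_comp, ten_put0, P.r_ξ a ⟨k, ha⟩, ← ten_put0, ← mul_apply_eq_comp,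
    ← (ten_perm _ rightF π).eq, mul_apply_eq_comp, hR, star_mul, Cent.star_ten, mul_apply_eq_comp,
    ← mul_apply_eq_comp, ← mul_apply_eq_comp, star_perm, (ten_perm (star a) leftF π⁻¹).eq]

/-- The mirror exists, for all fitting algebras at once. -/
theorem exists_mirror {g : AmbH H →L[ℂ] AmbH H} (hg : g ∈ (groups P).carrier) :
    ∃ y, y ∈ (amb M).commutant ∧ y ∈ unitary (AmbH H →L[ℂ] AmbH H) ∧
      y (put0 ξ) = star g (put0 ξ) ∧
      ∀ N : VonNeumannAlgebra H, P.Fits N → y ∈ (amb N).commutant := by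
  obtain ⟨k, a, ha, π, hπ, rfl⟩ := (mem_groups P).1 hg
  refine ⟨perm rightF π * ten (P.r a),
    mul_mem (permRight_mem M π) (ten_mem_commutant (P.r_mem a ⟨k, ha⟩)),
    mul_mem (perm_unitary _ _) ?_, mirror_apply P ha hπ,
    fun N hN => mul_mem (permRight_mem N π) (ten_mem_commutant (hN.r_memN a ⟨k, ha⟩))⟩
  have hu := Unitary.mem_iff.1 (P.r_unitary a ⟨k, ha⟩)
  rw [Unitary.mem_iff, Cent.star_ten, Cent.ten_mul, Cent.ten_mul, hu.1, hu.2, ten_one]
  exact ⟨rfl, rfl⟩

/-- A vector fixed by the swaps of the sites of each family lives on the vacuum. -/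
theorem fixed_vacuum {f : AmbH H}
    (hf : ∀ (k : ℕ) (π : Equiv.Perm (Fin k)), π ∈ perms k →
      (perm (H := H) leftF π * perm (H := H) rightF π) f = f)
    {i : Idx} (hi : i ≠ 0) : f i = 0 := by
  obtain ⟨n, hn⟩ := Finsupp.support_nonempty_iff.2 hi
  have hn0 : i n ≠ 0 := Finsupp.mem_support_iff.1 hn
  set far : ℕ → ℕ := fun j => Nat.pair n.unpair.1 (i.support.sup id + n + 1 + j) with hfar
  have hgt : ∀ j, i.support.sup id + n < far j := fun j =>
    lt_of_lt_of_le (by omega) (Nat.right_le_pair _ _)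
  have hfar0 : ∀ j, i (far j) = 0 := fun j => by
    by_contra h
    have := Finset.le_sup (f := id) (Finsupp.mem_support_iff.2 h)
    simp only [id] at this
    have := hgt j
    omega
  have step : ∀ j, ∃ i' : Idx, f i' = f i ∧ i' (far j) = i n ∧
      ∀ m, m ≠ n → m ≠ far j → i' m = i m := by
    intro j
    set k := far j + 1
    have hnk : n < k := by have := hgt j; omega
    set π : Equiv.Perm (Fin k) := Equiv.swap ⟨n, hnk⟩ ⟨far j, Nat.lt_succ_self _⟩
    have hπ : π ∈ perms k := mem_perms.2 fun m => by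
      have hfam : (far j).unpair.1 = n.unpair.1 := by simp [hfar]
      rcases eq_or_ne m ⟨n, hnk⟩ with rfl | h1
      · simp [π, hfam]
      rcases eq_or_ne m ⟨far j, Nat.lt_succ_self _⟩ with rfl | h2
      · simp [π, hfam]
      · simp [π, Equiv.swap_apply_of_ne_of_ne h1 h2]
    refine ⟨ovr k i fun m => i (π m), ?_, ?_, fun m h1 h2 => ?_⟩
    · have e := congrFun (congrArg (fun g : AmbH H => (⇑g : Idx → H)) (hf k π hπ)) i
      rw [← e, perm_left_right π fun m => congrArg Cent.famW (mem_perms.1 hπ m)]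
    · have := ovr_apply k i (fun m => i (π m)) ⟨far j, Nat.lt_succ_self _⟩
      simpa [π] using this
    · rcases lt_or_ge m k with h | h
      · have e := ovr_apply k i (fun m => i (π m)) ⟨m, h⟩
        rw [show π ⟨m, h⟩ = ⟨m, h⟩ from Equiv.swap_apply_of_ne_of_ne
          (by simpa [Fin.ext_iff] using h1) (by simpa [Fin.ext_iff] using h2)] at e
        exact e
      · exact ovr_beyond k i _ m h
  choose τ hτ hτfar hτoff using step
  have hinj : Function.Injective τ := fun j j' h => by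
    by_contra hne
    have hne' : far j ≠ far j' := fun e => hne (by
      have := (Nat.pair_eq_pair.1 e).2
      omega)
    have hn' : far j ≠ n := by have := hgt j; omega
    refine hn0 ?_
    rw [← hτfar j, h, hτoff j' _ hn' hne', hfar0]
  have hs : Summable fun j => ‖f (τ j)‖ ^ (2 : ENNReal).toReal :=
    ((lp.memℓp f).summable (by norm_num)).comp_injective hinj
  simp only [hτ] at hs
  have hz := tendsto_nhds_unique tendsto_const_nhds hs.tendsto_atTop_zero
  rw [show (2 : ENNReal).toReal = 2 by norm_num, Real.rpow_eq_zero (norm_nonneg _) two_ne_zero,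
    norm_eq_zero] at hz
  exact hz

/-- The averages of an element of the stabilisation tend to the centre. -/
theorem central (hs : VP132.IsStandardVector H M ξ) (x : AmbH H →L[ℂ] AmbH H) (hx : x ∈ amb M) :
    ∃ z ∈ amb M, z ∈ (amb M).commutant ∧ ∀ v,
      Tendsto (fun m => avg (groups P) m (fun g => g * x * star g) v) atTop (𝓝 (z v)) := by
  have hgA : ∀ g ∈ (groups P).carrier, g ∈ amb M := fun g hg => by
    obtain ⟨k, a, ha, π, -, rfl⟩ := (mem_groups P).1 hg
    exact mul_mem (ten_mem_amb (P.memM a ⟨k, ha⟩)) (permLeft_mem M π)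
  have hd := dense_commutant (M := M) hs.2.2
  obtain ⟨L, hLA, hLc, hLfix, hLt⟩ := exists_limit hgA (fun g hg => by
    obtain ⟨y, h1, h2, h3, -⟩ := exists_mirror P hg
    exact ⟨y, h1, h2, h3⟩) hd hx
  have hvac : ∀ i, i ≠ 0 → L (put0 ξ) i = 0 := fun i hi => by
    refine fixed_vacuum (fun k π hπ => ?_) hi
    have hg : perm leftF π ∈ (groups P).carrier :=
      (mem_groups P).2 ⟨k, 1, P.Γ.one_mem k, π, hπ, by rw [ten_one, one_mul]⟩
    refine hLfix _ hg _ (permRight_mem M π) ?_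
    conv_rhs => rw [← put0_fixed hπ ξ]
    rw [← mul_apply_eq_comp, ← mul_assoc, (Unitary.mem_iff.1 (perm_unitary (H := H) leftF π)).1, one_mul]
  set z₀ := corner L
  have hz₀M : z₀ ∈ M := corner_mem hLA
  have hη : L (put0 ξ) = ten z₀ (put0 ξ) := by
    refine lp.ext (funext fun i => ?_)
    rw [ten_put0]
    rcases eq_or_ne i 0 with rfl | hi
    · rw [put0_apply_zero]; rfl
    · rw [put0_apply_ne hi, hvac i hi]
  have hL : L = ten z₀ := Full.Reduce.eq_of_dense hd fun v ⟨y, hy, hyv⟩ => by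
    rw [← hyv, ← mul_apply_eq_comp L, VonNeumannAlgebra.mem_commutant_iff.1 hy L hLA,
      mul_apply_eq_comp, hη, ← mul_apply_eq_comp (ten z₀),
      VonNeumannAlgebra.mem_commutant_iff.1 hy _ (ten_mem_amb hz₀M), mul_apply_eq_comp]
  have hcent : z₀ ∈ M.commutant := by
    obtain ⟨z, hzM, hzM', ht⟩ := P.central z₀ hz₀M
    suffices e : z = z₀ by rwa [← e]
    refine ContinuousLinearMap.ext fun v => tendsto_nhds_unique (ht v) ?_
    refine tendsto_const_nhds.congr fun m => ?_
    rw [avg_congr (f' := fun _ => z₀) fun g hg => ?_, avg_const]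
    have hg2 : ten g ∈ (groups P).carrier :=
      (mem_groups P).2 ⟨m, g, hg, 1, one_mem_perms m, by rw [perm_one, mul_one]⟩
    have e := corner_comm (z := L) (y := g) (hLc _ hg2).symm
    rw [← e, mul_assoc, (Unitary.mem_iff.1 (P.Γ.mem_unitary m g hg)).2, mul_one]
  exact ⟨L, hLA, by rw [hL]; exact ten_mem_commutant hcent, hLt⟩

/-- PIN UP. -/
theorem pinUpSpec : PinUpSpec := by
  intro H _ _ _ _ M ξ P hs
  have hmir := fun g (hg : g ∈ (groups P).carrier) => exists_mirror P hg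
  choose! r h1 h2 h3 h4 using hmir
  refine ⟨⟨groups P, r, fun g hg => ?_, h1, h2, h3, central P hs⟩, fun N hN => ⟨fun g hg => ?_,
    fun g hg => h4 g hg N hN, fun z => ?_⟩⟩
  · obtain ⟨k, a, ha, π, -, rfl⟩ := (mem_groups P).1 hg
    exact mul_mem (ten_mem_amb (P.memM a ⟨k, ha⟩)) (permLeft_mem M π)
  · obtain ⟨k, a, ha, π, -, rfl⟩ := (mem_groups P).1 hg
    exact mul_mem (ten_mem_amb (hN.memN a ⟨k, ha⟩)) (permLeft_mem N π)
  · rw [centre_amb, centre_amb]
    simp only [hN.centre]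

end Vale.Agent.P096.Three.PinUp

namespace Vale.Agent.P096.Three

/-- PIN UP. -/
theorem pinUpSpec : PinUpSpec := PinUp.pinUpSpec

end Vale.Agent.P096.Three
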