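import Vale.Agent.P096.Three.Spec
import Vale.Agent.P096.Three.Pins
import Vale.Agent.P096.Three.Rotate.Mean
import Vale.Agent.P132.TypeThree.FixedProj

/-!
P096, all algebras: the module ROTATE.
-/

open scoped InnerProductSpace
open TopologicalSpace (SeparableSpace)

namespace Vale.Agent.P096.Three

open Vale.Agent.P132.TypeThree (StdData)
open Vale.Agent.P096.Two (conjAlg mem_conjAlg close_conjAlg nearConj_of_conjAlg)

namespace Rotate

variable {H : Type} [NormedAddCommGroup H] [InnerProductSpace ℂ H] [CompleteSpace H]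
  {M N : VonNeumannAlgebra H} {ξ : H}

theorem isFlow {R : H →L[ℂ] H} {J : H ≃ₗᵢ⋆[ℂ] H} {U : ℝ → H →L[ℂ] H}
    (h : StdData M ξ R J U) : IsFlow U :=
  ⟨h.mod.U_add, h.mod.U_zero, h.mod.U_star, h.mod.U_cont⟩

theorem isClose_mono {a b : ℝ} (h : Lit.IsClose H M N a) (hab : a ≤ b) : Lit.IsClose H M N b :=
  ⟨fun x hx hx1 => (h.1 x hx hx1).imp fun _ hy => ⟨hy.1, hy.2.trans hab⟩,
    fun x hx hx1 => (h.2 x hx hx1).imp fun _ hy => ⟨hy.1, hy.2.trans hab⟩⟩

theorem nearConj_mono {a b : ℝ} (h : NearConj M N a) (hab : a ≤ b) : NearConj M N b :=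
  h.imp fun _ hu => ⟨hu.1, hu.2.1.trans hab, hu.2.2⟩

theorem isClose_nonneg {a : ℝ} (h : Lit.IsClose H M N a) : 0 ≤ a := by
  obtain ⟨y, _, hy⟩ := h.1 1 (one_mem M) (Full.Reduce.norm_le_one (one_mem _))
  exact (norm_nonneg _).trans hy

end Rotate

open Rotate in
/-- ROTATE: the second algebra is moved so that the first flow normalises it. -/
theorem rotateModule : RotateModule := by
  rintro ⟨δ₁, C₁, hδ₁, hC₁, hMove⟩ ⟨δ₂, C₂, hδ₂, hC₂, hFlow⟩ ⟨δ₃, C₃, hδ₃, hC₃, hCore⟩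
  set A : ℝ := C₁ + 32 * (C₂ * C₁) with hA
  have hA0 : 0 ≤ A := by positivity
  refine ⟨min (min δ₁ (δ₂ / (C₁ + 1))) (min (1 / (8 * (C₂ * C₁ + 1)))
      (min (δ₃ / (A + 1)) (1 / (C₁ + 1)))), C₃ * A + 8 * (C₂ * C₁) + C₁, by positivity,
    by positivity, ?_⟩
  intro H _ _ _ _ M N ξ γ hstd ⟨P⟩ hγ hcl
  have hγ0 := isClose_nonneg hcl
  simp only [lt_min_iff, lt_div_iff₀ (show (0 : ℝ) < C₁ + 1 by positivity),
    lt_div_iff₀ (show (0 : ℝ) < A + 1 by positivity),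
    lt_div_iff₀ (show (0 : ℝ) < 8 * (C₂ * C₁ + 1) by positivity)] at hγ
  obtain ⟨⟨hγ₁, hγ₂⟩, hγ₄, hγ₃, hγ₅⟩ := hγ
  obtain ⟨N', hfit, hstd', hcl', hback⟩ := hMove H M N ξ P γ hstd hγ₁ hcl
  obtain ⟨R, J, U, hd⟩ := VP132.exists_stdData hstd
  obtain ⟨R', J', U', hd'⟩ := VP132.exists_stdData hstd'
  have hε := hFlow H M N' ξ P R R' J J' U U' (C₁ * γ) hd hd' hfit (by nlinarith) hcl'
  obtain ⟨w, hw1, hwU, hwc⟩ := exists_conjugate (isFlow hd) (isFlow hd')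
    (show C₂ * (C₁ * γ) ≤ 1 / 8 by nlinarith) hε
  obtain ⟨hwu, hwu'⟩ := Unitary.mem_iff.1 w.2
  have k1 : ∀ a, (w : H →L[ℂ] H) * (star (w : H →L[ℂ] H) * a) = a := fun a => by rw [← mul_assoc, hwu', one_mul]
  have k2 : ∀ a, star (w : H →L[ℂ] H) * ((w : H →L[ℂ] H) * a) = a := fun a => by rw [← mul_assoc, hwu, one_mul]
  have hfix : ∀ a, (w : H →L[ℂ] H) * a = a * (w : H →L[ℂ] H) → (w : H →L[ℂ] H) * a * star (w : H →L[ℂ] H) = a := fun a e => by
    rw [e, mul_assoc, hwu', mul_one]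
  have hwg : ∀ g ∈ P.Γ.carrier, (w : H →L[ℂ] H) * g = g * (w : H →L[ℂ] H) := fun g hg =>
    hwc g (fun t => P.U_comm_g P.fits_self hd hg t) fun t => P.U_comm_g hfit hd' hg t
  have hwr : ∀ g ∈ P.Γ.carrier, (w : H →L[ℂ] H) * P.r g = P.r g * (w : H →L[ℂ] H) := fun g hg =>
    hwc _ (fun t => P.U_comm_r P.fits_self hd hg t) fun t => P.U_comm_r hfit hd' hg t
  have hwz : ∀ z, z ∈ M → z ∈ M.commutant → (w : H →L[ℂ] H) * z = z * (w : H →L[ℂ] H) := fun z h1 h2 =>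
    hwc z (fun t => U_comm_centre hd h1 h2 t) fun t =>
      U_comm_centre hd' ((hfit.centre z).1 ⟨h1, h2⟩).1 ((hfit.centre z).1 ⟨h1, h2⟩).2 t
  have hcomm : ∀ a, (w : H →L[ℂ] H) * a = a * (w : H →L[ℂ] H) → a ∈ N'.commutant → a ∈ (conjAlg w N').commutant := by
    intro a ha hN'
    refine VonNeumannAlgebra.mem_commutant_iff.2 fun y hy => ?_
    have e := VonNeumannAlgebra.mem_commutant_iff.1 hN' _ (mem_conjAlg.1 hy)
    calc y * a = star (w : H →L[ℂ] H) * ((w : H →L[ℂ] H) * y * star (w : H →L[ℂ] H) * ((w : H →L[ℂ] H) * a * star (w : H →L[ℂ] H))) * (w : H →L[ℂ] H) := by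
          simp only [mul_assoc, k2, hwu, mul_one]
      _ = star (w : H →L[ℂ] H) * ((w : H →L[ℂ] H) * y * star (w : H →L[ℂ] H) * a) * (w : H →L[ℂ] H) := by rw [hfix a ha]
      _ = star (w : H →L[ℂ] H) * (a * ((w : H →L[ℂ] H) * y * star (w : H →L[ℂ] H))) * (w : H →L[ℂ] H) := by rw [e]
      _ = star (w : H →L[ℂ] H) * (((w : H →L[ℂ] H) * a * star (w : H →L[ℂ] H)) * ((w : H →L[ℂ] H) * y * star (w : H →L[ℂ] H))) * (w : H →L[ℂ] H) := by rw [hfix a ha]
      _ = a * y := by simp only [mul_assoc, k2, hwu, mul_one]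
  have hfit' : P.Fits (conjAlg w N') := by
    refine ⟨fun g hg => mem_conjAlg.2 ?_, fun g hg => hcomm _ (hwr g hg) (hfit.r_memN g hg),
      fun z => ⟨fun hz => ?_, fun hz => ?_⟩⟩
    · show (w : H →L[ℂ] H) * g * star (w : H →L[ℂ] H) ∈ N'
      rw [hfix g (hwg g hg)]
      exact hfit.memN g hg
    · have hz' := (hfit.centre z).1 hz
      refine ⟨mem_conjAlg.2 ?_, hcomm z (hwz z hz.1 hz.2) hz'.2⟩
      show (w : H →L[ℂ] H) * z * star (w : H →L[ℂ] H) ∈ N'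
      rw [hfix z (hwz z hz.1 hz.2)]
      exact hz'.1
    · have hc : (w : H →L[ℂ] H) * z * star (w : H →L[ℂ] H) ∈ N'.commutant := by
        refine VonNeumannAlgebra.mem_commutant_iff.2 fun y hy => ?_
        have hy' : star (w : H →L[ℂ] H) * y * (w : H →L[ℂ] H) ∈ conjAlg w N' := mem_conjAlg.2 (by
          show (w : H →L[ℂ] H) * (star (w : H →L[ℂ] H) * y * (w : H →L[ℂ] H)) * star (w : H →L[ℂ] H) ∈ N'
          simpa only [mul_assoc, k1, hwu', mul_one] using hy)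
        have e := congrArg (fun b => (w : H →L[ℂ] H) * b * star (w : H →L[ℂ] H))
          (VonNeumannAlgebra.mem_commutant_iff.1 hz.2 _ hy')
        simpa only [mul_assoc, k1, hwu', mul_one] using e
      have h' := (hfit.centre _).2 ⟨mem_conjAlg.1 hz.1, hc⟩
      have e : (w : H →L[ℂ] H) * z * star (w : H →L[ℂ] H) = z := by
        have h2 := congrArg (fun b => star (w : H →L[ℂ] H) * b) (hwz _ h'.1 h'.2)
        simpa only [mul_assoc, k2, hwu, mul_one] using h2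
      rwa [e] at h'
  have hnorm : ∀ t : ℝ, ∀ x ∈ conjAlg w N', U t * x * U (-t) ∈ conjAlg w N' := by
    intro t x hx
    refine mem_conjAlg.2 ?_
    show (w : H →L[ℂ] H) * (U t * x * U (-t)) * star (w : H →L[ℂ] H) ∈ N'
    have hm := hd'.mod.U_mem t _ (mem_conjAlg.1 hx)
    rw [hwU t, hwU (-t)] at hm
    simpa only [mul_assoc, k2] using hm
  have hcl'' : Lit.IsClose H M (conjAlg w N') (A * γ) := by
    refine isClose_mono (close_conjAlg hcl' w) ?_
    have h1 : C₁ * γ ≤ 1 := by nlinarith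
    nlinarith [norm_nonneg ((w : H →L[ℂ] H) - 1)]
  have h3 := nearConj_of_conjAlg w
    (hCore H M (conjAlg w N') ξ P R J U (A * γ) hd hfit' hnorm (by nlinarith) hcl'')
  refine nearConj_mono (hback _ h3) ?_
  nlinarith

end Vale.Agent.P096.Three
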