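import Vale.Agent.P096.Three.Assemble
import Vale.Agent.P096.Three.PinProof
import Vale.Agent.P096.Three.PinUp
import Vale.Agent.P096.Three.Move
import Vale.Agent.P096.Three.Rotate
import Vale.Agent.P096.Three.Flow.Freq
import Vale.Agent.P096.Three.Descent
import Vale.Agent.P096.Three.Core.End
import Vale.Agent.P096.Three.Core.Close
import Vale.Agent.P096.Three.Amb.Main
import Vale.Agent.P096.Three.Core.Semi
import Vale.Agent.P096.Three.Core.Semi.Trace
import Vale.Agent.P096.Full.Main

/-!
P096, all algebras: the assembly in standard form.
-/

namespace Vale.Agent.P096.Three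

/-- The trace property of the cores. -/
theorem traceProp : Core.TraceProp := fun _ _ _ _ _ _ _ _ _ _ hd _ hX h1 h2 =>
  Core.Semi.norm_apply_traceVec hd hX h1 h2

/-- The statement in standard form. -/
theorem stdTarget : StdTarget :=
  assembleModule ambSpec pinSpec descentSpec
    (rotateModule moveSpec (Flow.flowBridge ambSpec pinUpSpec)
      (Core.endModule ambSpec descentSpec Full.target (Core.semiSpec_of_trace traceProp) Core.closeSpec
        (Core.rigidSpec_of_trace traceProp)))

end Vale.Agent.P096.Three
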