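import Vale.Agent.P096.Lit.Statement

/-!
P096: the strong Kadison-Kastler statement for all von Neumann algebras.
-/

namespace Vale.Agent.P096.Three

/-- Close von Neumann algebras are conjugate by a unitary near the identity, with absolute
constants. -/
def Target : Prop :=
  ∃ δ C : ℝ, 0 < δ ∧ ∀ (H : Type) [NormedAddCommGroup H] [InnerProductSpace ℂ H] [CompleteSpace H]
    (M N : VonNeumannAlgebra H) (γ : ℝ), γ < δ → Lit.IsClose H M N γ → NearConj M N (C * γ)

end Vale.Agent.P096.Three
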